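import Mathlib

/-! P134 / ASM : the profile `F(t) = (1 + a (1+t/T)^a)^(-b/a)`, `b = 11/20` (closed form of
helper876), its derivatives and monotonicity properties. -/

set_option linter.all false

open MeasureTheory Set

namespace Vale.Agent.P134.H970.Prof

noncomputable def Yf (a T t : ℝ) : ℝ := a * (1 + t / T) ^ a
noncomputable def kf (a T t : ℝ) : ℝ := 11 / 20 * Yf a T t / (1 + Yf a T t)
noncomputable def Ff (a T t : ℝ) : ℝ := (1 + Yf a T t) ^ (-(11 / 20) / a)
/-- `-F'` -/
noncomputable def gf (a T t : ℝ) : ℝ := kf a T t * Ff a T t / (T + t)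

variable {a T t : ℝ}

lemma s_pos (hT : 0 < T) (ht : -T < t) : 0 < 1 + t / T := by
  have : 1 + t / T = (T + t) / T := by field_simp
  rw [this]
  exact div_pos (by linarith) hT

lemma Yf_pos (ha : 0 < a) (hT : 0 < T) (ht : -T < t) : 0 < Yf a T t :=
  mul_pos ha (Real.rpow_pos_of_pos (s_pos hT ht) _)

lemma kf_nonneg (ha : 0 < a) (hT : 0 < T) (ht : -T < t) : 0 ≤ kf a T t := by
  have := Yf_pos ha hT ht
  unfold kf; positivity

lemma kf_le (ha : 0 < a) (hT : 0 < T) (ht : -T < t) : kf a T t ≤ 11 / 20 := by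
  have := Yf_pos ha hT ht
  unfold kf
  rw [div_le_iff₀ (by linarith)]
  nlinarith

lemma Ff_pos (ha : 0 < a) (hT : 0 < T) (ht : -T < t) : 0 < Ff a T t := by
  have := Yf_pos ha hT ht
  exact Real.rpow_pos_of_pos (by linarith) _

lemma gf_nonneg (ha : 0 < a) (hT : 0 < T) (ht : -T < t) : 0 ≤ gf a T t := by
  have h1 := kf_nonneg ha hT ht
  have h2 := Ff_pos ha hT ht
  have : 0 < T + t := by linarith
  unfold gf; positivity

lemma hasDerivAt_Yf (ha : 0 < a) (hT : 0 < T) (ht : -T < t) :
    HasDerivAt (Yf a T) (a * Yf a T t / (T + t)) t := by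
  have hs := s_pos hT ht
  have h1 : HasDerivAt (fun t : ℝ => 1 + t / T) (1 / T) t := by
    simpa using ((hasDerivAt_id t).div_const T).const_add 1
  have h2 := (h1.rpow_const (p := a) (Or.inl hs.ne')).const_mul a
  refine h2.congr_deriv ?_
  unfold Yf
  have e : (1 + t / T) ^ (a - 1) = (1 + t / T) ^ a / (1 + t / T) := by
    rw [Real.rpow_sub_one hs.ne']
  rw [e]
  have hT' : T + t ≠ 0 := by linarith
  have hs' : 1 + t / T = (T + t) / T := by field_simp
  rw [hs']
  field_simp

lemma hasDerivAt_Ff (ha : 0 < a) (hT : 0 < T) (ht : -T < t) :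
    HasDerivAt (Ff a T) (-gf a T t) t := by
  have hY := Yf_pos ha hT ht
  have h1 : HasDerivAt (fun t => 1 + Yf a T t) (a * Yf a T t / (T + t)) t :=
    (hasDerivAt_Yf ha hT ht).const_add 1
  have h2 := h1.rpow_const (p := -(11 / 20) / a) (Or.inl (by linarith : (1 + Yf a T t) ≠ 0))
  refine h2.congr_deriv ?_
  rw [Real.rpow_sub_one (by linarith : (1 + Yf a T t) ≠ 0)]
  unfold gf kf Ff
  have hT' : T + t ≠ 0 := by linarith
  have h3 : (1 + Yf a T t) ≠ 0 := by linarith
  field_simp

lemma hasDerivAt_kf (ha : 0 < a) (hT : 0 < T) (ht : -T < t) :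
    HasDerivAt (kf a T) (a * kf a T t / ((1 + Yf a T t) * (T + t))) t := by
  have hY := Yf_pos ha hT ht
  have h0 := hasDerivAt_Yf ha hT ht
  have h3 : (1 + Yf a T t) ≠ 0 := by linarith
  have h1 := (h0.const_mul (11 / 20)).div (h0.const_add 1) h3
  refine h1.congr_deriv ?_
  unfold kf
  have hT' : T + t ≠ 0 := by linarith
  field_simp
  ring

lemma hasDerivAt_gf (ha : 0 < a) (hT : 0 < T) (ht : -T < t) :
    HasDerivAt (gf a T) (gf a T t * (a / (1 + Yf a T t) - kf a T t - 1) / (T + t)) t := by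
  have hY := Yf_pos ha hT ht
  have h3 : (1 + Yf a T t) ≠ 0 := by linarith
  have hT' : T + t ≠ 0 := by linarith
  have h1 := ((hasDerivAt_kf ha hT ht).mul (hasDerivAt_Ff ha hT ht)).div
    ((hasDerivAt_id t).const_add T) hT'
  refine h1.congr_deriv ?_
  simp only [id, Pi.mul_apply]
  unfold gf
  field_simp
  ring

/-! ### monotonicity -/

lemma Ff_antitone (ha : 0 < a) (hT : 0 < T) : AntitoneOn (Ff a T) (Ici 0) := by
  refine antitoneOn_of_deriv_nonpos (convex_Ici 0) ?_ ?_ ?_
  · exact fun t ht => (hasDerivAt_Ff ha hT (by have : (0:ℝ) ≤ t := ht; linarith)).continuousAt.continuousWithinAt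
  · intro t ht
    rw [interior_Ici] at ht
    exact (hasDerivAt_Ff ha hT (by have : (0:ℝ) < t := ht; linarith)).differentiableAt.differentiableWithinAt
  · intro t ht
    rw [interior_Ici] at ht
    have ht' : -T < t := by have : (0:ℝ) < t := ht; linarith
    rw [(hasDerivAt_Ff ha hT ht').deriv]
    linarith [gf_nonneg ha hT ht']

lemma gf_antitone (ha : 0 < a) (ha1 : a ≤ 1) (hT : 0 < T) : AntitoneOn (gf a T) (Ici 0) := by
  refine antitoneOn_of_deriv_nonpos (convex_Ici 0) ?_ ?_ ?_
  · exact fun t ht => (hasDerivAt_gf ha hT (by have : (0:ℝ) ≤ t := ht; linarith)).continuousAt.continuousWithinAt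
  · intro t ht
    rw [interior_Ici] at ht
    exact (hasDerivAt_gf ha hT (by have : (0:ℝ) < t := ht; linarith)).differentiableAt.differentiableWithinAt
  · intro t ht
    rw [interior_Ici] at ht
    have ht' : -T < t := by have : (0:ℝ) < t := ht; linarith
    rw [(hasDerivAt_gf ha hT ht').deriv]
    have h1 := gf_nonneg ha hT ht'
    have h2 := kf_nonneg ha hT ht'
    have hY := Yf_pos ha hT ht'
    have h3 : a / (1 + Yf a T t) ≤ 1 := by
      rw [div_le_one (by linarith)]; linarith
    have h4 : 0 < T + t := by linarith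
    rw [div_nonpos_iff]
    right
    exact ⟨mul_nonpos_of_nonneg_of_nonpos h1 (by linarith), h4.le⟩

/-- `(T + t) F(t)` is increasing. -/
lemma mulF_mono (ha : 0 < a) (hT : 0 < T) : MonotoneOn (fun t => (T + t) * Ff a T t) (Ici 0) := by
  have hd : ∀ t, -T < t → HasDerivAt (fun t => (T + t) * Ff a T t)
      (Ff a T t * (1 - kf a T t)) t := by
    intro t ht
    have h1 := ((hasDerivAt_id t).const_add T).mul (hasDerivAt_Ff ha hT ht)
    refine h1.congr_deriv ?_
    simp only [id]
    unfold gf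
    have hT' : T + t ≠ 0 := by linarith
    field_simp
    ring
  refine monotoneOn_of_deriv_nonneg (convex_Ici 0) ?_ ?_ ?_
  · exact fun t ht => (hd t (by have : (0:ℝ) ≤ t := ht; linarith)).continuousAt.continuousWithinAt
  · intro t ht
    rw [interior_Ici] at ht
    exact (hd t (by have : (0:ℝ) < t := ht; linarith)).differentiableAt.differentiableWithinAt
  · intro t ht
    rw [interior_Ici] at ht
    have ht' : -T < t := by have : (0:ℝ) < t := ht; linarith
    rw [(hd t ht').deriv]
    have h1 := Ff_pos ha hT ht'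
    have h2 := kf_le ha hT ht'
    exact mul_nonneg h1.le (by linarith)

/-- `F(t) e^{t/T}` is increasing. -/
lemma expF_mono (ha : 0 < a) (hT : 0 < T) :
    MonotoneOn (fun t => Real.exp (t / T) * Ff a T t) (Ici 0) := by
  have hd : ∀ t, -T < t → HasDerivAt (fun t => Real.exp (t / T) * Ff a T t)
      (Real.exp (t / T) * Ff a T t * (1 / T - kf a T t / (T + t))) t := by
    intro t ht
    have h0 : HasDerivAt (fun t => Real.exp (t / T)) (Real.exp (t / T) * (1 / T)) t :=
      ((hasDerivAt_id t).div_const T).exp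
    have h1 := h0.mul (hasDerivAt_Ff ha hT ht)
    refine h1.congr_deriv ?_
    unfold gf
    have hT' : T + t ≠ 0 := by linarith
    field_simp
    ring
  refine monotoneOn_of_deriv_nonneg (convex_Ici 0) ?_ ?_ ?_
  · exact fun t ht => (hd t (by have : (0:ℝ) ≤ t := ht; linarith)).continuousAt.continuousWithinAt
  · intro t ht
    rw [interior_Ici] at ht
    exact (hd t (by have : (0:ℝ) < t := ht; linarith)).differentiableAt.differentiableWithinAt
  · intro t ht
    rw [interior_Ici] at ht
    have ht0 : 0 < t := ht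
    have ht' : -T < t := by linarith
    rw [(hd t ht').deriv]
    have h1 := Ff_pos ha hT ht'
    have h2 := kf_le ha hT ht'
    have h3 := kf_nonneg ha hT ht'
    have h4 : kf a T t / (T + t) ≤ 1 / T := by
      apply div_le_div₀ <;> linarith
    have := Real.exp_pos (t / T)
    exact mul_nonneg (by positivity) (by linarith)

/-- decay -/
lemma Ff_le (ha : 0 < a) (hT : 0 < T) (ht : 0 < t) :
    Ff a T t ≤ a ^ (-(11 / 20) / a) * (t / T) ^ (-(11 / 20) : ℝ) := by
  have hs := s_pos hT (by linarith : -T < t)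
  have hY := Yf_pos ha hT (by linarith : -T < t)
  have htT : 0 < t / T := by positivity
  have h1 : a * (t / T) ^ a ≤ 1 + Yf a T t := by
    have : (t / T) ^ a ≤ (1 + t / T) ^ a := Real.rpow_le_rpow htT.le (by linarith) ha.le
    unfold Yf
    nlinarith
  have h2 : 0 < a * (t / T) ^ a := mul_pos ha (Real.rpow_pos_of_pos htT _)
  have h3 : Ff a T t ≤ (a * (t / T) ^ a) ^ (-(11 / 20) / a) := by
    unfold Ff
    refine Real.rpow_le_rpow_of_nonpos h2 h1 ?_
    rw [neg_div]
    have : 0 < 11 / 20 / a := by positivity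
    linarith
  refine h3.trans (le_of_eq ?_)
  rw [Real.mul_rpow ha.le (Real.rpow_nonneg htT.le _), ← Real.rpow_mul htT.le]
  congr 2
  field_simp

/-- `∫ (r - τ) F'(r)² dr ≤ 0.132 F(τ)²` -/
lemma phi_le (ha : 0 < a) (ha1 : a ≤ 1 / 100) (hT : 0 < T) {τ R : ℝ} (hτ : 0 ≤ τ) (hR : τ ≤ R)
    {h : ℝ → ℝ} (hc : Continuous h) (hh : ∀ r, τ ≤ r → h r ≤ gf a T r ^ 2) :
    ∫ r in τ..R, (r - τ) * h r ≤ 132 / 1000 * Ff a T τ ^ 2 := by
  set V : ℝ → ℝ := fun r => 132 / 1000 * (-(2 * (r - τ) * (Ff a T r * gf a T r)) - Ff a T r ^ 2)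
    with hV
  set V' : ℝ → ℝ := fun r => 132 / 1000 * (-(2 * (Ff a T r * gf a T r) + 2 * (r - τ) *
      (-gf a T r * gf a T r + Ff a T r * (gf a T r * (a / (1 + Yf a T r) - kf a T r - 1) / (T + r))))
      - 2 * Ff a T r * (-gf a T r)) with hV'
  have hder : ∀ r, 0 ≤ r → HasDerivAt V (V' r) r := by
    intro r hr
    have hr' : -T < r := by linarith
    have h1 := hasDerivAt_Ff ha hT hr'
    have h2 := hasDerivAt_gf ha hT hr'
    have h3 : HasDerivAt (fun r => 2 * (r - τ)) 2 r := by
      simpa using ((hasDerivAt_id r).sub_const τ).const_mul 2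
    have h4 := ((h3.mul (h1.mul h2)).neg.sub (h1.pow 2)).const_mul (132 / 1000)
    refine h4.congr_deriv ?_
    simp only [hV', Pi.mul_apply, Nat.cast_ofNat, Nat.add_one_sub_one, pow_one]
  have key : ∫ r in τ..R, (r - τ) * h r ≤ V R - V τ := by
    refine intervalIntegral.integral_le_sub_of_hasDeriv_right_of_le hR ?_ (g' := V') ?_ ?_ ?_
    · exact fun r hr => (hder r (hτ.trans hr.1)).continuousAt.continuousWithinAt
    · exact fun r hr => (hder r (hτ.trans hr.1.le)).hasDerivWithinAt
    · exact (Continuous.continuousOn (by fun_prop)).integrableOn_Icc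
    · intro r hr
      have hr0 : 0 ≤ r := hτ.trans hr.1.le
      have hr' : -T < r := by linarith
      have hF := Ff_pos ha hT hr'
      have hk0 := kf_nonneg ha hT hr'
      have hk1 := kf_le ha hT hr'
      have hg0 := gf_nonneg ha hT hr'
      have hY := Yf_pos ha hT hr'
      have hTr : 0 < T + r := by linarith
      have h3 : a / (1 + Yf a T r) ≤ 1 / 100 := by
        rw [div_le_iff₀ (by linarith)]; nlinarith
      have hrτ : 0 ≤ r - τ := by linarith [hr.1]
      have e1 : V' r = 132 / 1000 * (2 * (r - τ)) * (kf a T r * (Ff a T r / (T + r)) ^ 2 *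
          (2 * kf a T r + 1 - a / (1 + Yf a T r))) := by
        simp only [hV']
        unfold gf
        field_simp
        ring
      have e2 : (r - τ) * h r ≤ (r - τ) * gf a T r ^ 2 :=
        mul_le_mul_of_nonneg_left (hh r hr.1.le) hrτ
      refine e2.trans ?_
      rw [e1]
      have e3 : gf a T r ^ 2 = kf a T r * (Ff a T r / (T + r)) ^ 2 * kf a T r := by
        unfold gf; ring
      rw [e3]
      have e4 : 0 ≤ kf a T r * (Ff a T r / (T + r)) ^ 2 := by positivity
      have e5 : kf a T r ≤ 132 / 1000 * 2 * (2 * kf a T r + 1 - a / (1 + Yf a T r)) := by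
        nlinarith
      calc (r - τ) * (kf a T r * (Ff a T r / (T + r)) ^ 2 * kf a T r)
          ≤ (r - τ) * (kf a T r * (Ff a T r / (T + r)) ^ 2 *
            (132 / 1000 * 2 * (2 * kf a T r + 1 - a / (1 + Yf a T r)))) := by gcongr
        _ = _ := by ring
  refine key.trans ?_
  have hR' : -T < R := by linarith
  have h1 : V R ≤ 0 := by
    have hF := Ff_pos ha hT hR'
    have hg0 := gf_nonneg ha hT hR'
    have : 0 ≤ 2 * (R - τ) * (Ff a T R * gf a T R) :=
      mul_nonneg (by linarith) (by positivity)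
    simp only [hV]
    nlinarith [sq_nonneg (Ff a T R)]
  have h2 : V τ = -(132 / 1000 * Ff a T τ ^ 2) := by simp only [hV]; ring
  linarith

/-- `∫₀ r F'(r)² dr ≤ a F(0)²` -/
lemma phi0_le (ha : 0 < a) (ha1 : a ≤ 1 / 100) (hT : 0 < T) {R : ℝ} (hR : 0 ≤ R)
    {h : ℝ → ℝ} (hc : Continuous h) (hh : ∀ r, 0 ≤ r → h r ≤ gf a T r ^ 2) :
    ∫ r in (0:ℝ)..R, (r - 0) * h r ≤ a * Ff a T 0 ^ 2 := by
  set V : ℝ → ℝ := fun r => -(1 / 2) * (kf a T r * Ff a T r ^ 2) - a / 4 * Ff a T r ^ 2 with hV
  set V' : ℝ → ℝ := fun r => -(1 / 2) * (a * kf a T r / ((1 + Yf a T r) * (T + r)) * Ff a T r ^ 2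
      + kf a T r * (2 * Ff a T r * (-gf a T r))) - a / 4 * (2 * Ff a T r * (-gf a T r)) with hV'
  have hder : ∀ r, 0 ≤ r → HasDerivAt V (V' r) r := by
    intro r hr
    have hr' : -T < r := by linarith
    have h1 := hasDerivAt_Ff ha hT hr'
    have h2 := hasDerivAt_kf ha hT hr'
    have h4 := ((h2.mul (h1.pow 2)).const_mul (-(1 / 2))).sub ((h1.pow 2).const_mul (a / 4))
    refine h4.congr_deriv ?_
    simp only [hV', Nat.cast_ofNat, Nat.add_one_sub_one, pow_one, Pi.pow_apply]
  have key : ∫ r in (0:ℝ)..R, (r - 0) * h r ≤ V R - V 0 := by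
    refine intervalIntegral.integral_le_sub_of_hasDeriv_right_of_le hR ?_ (g' := V') ?_ ?_ ?_
    · exact fun r hr => (hder r hr.1).continuousAt.continuousWithinAt
    · exact fun r hr => (hder r hr.1.le).hasDerivWithinAt
    · exact (Continuous.continuousOn (by fun_prop)).integrableOn_Icc
    · intro r hr
      have hr0 : 0 ≤ r := hr.1.le
      have hr' : -T < r := by linarith
      have hF := Ff_pos ha hT hr'
      have hk0 := kf_nonneg ha hT hr'
      have hg0 := gf_nonneg ha hT hr'
      have hY := Yf_pos ha hT hr'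
      have hTr : 0 < T + r := by linarith
      have h3 : a / (1 + Yf a T r) ≤ a := by
        rw [div_le_iff₀ (by linarith)]; nlinarith
      have e1 : V' r = kf a T r * (Ff a T r ^ 2 / (T + r)) *
          (kf a T r + (a - a / (1 + Yf a T r)) / 2) := by
        simp only [hV']
        unfold gf
        field_simp
        ring
      rw [e1, sub_zero]
      have e3 : r * gf a T r ^ 2 ≤ kf a T r * (Ff a T r ^ 2 / (T + r)) * kf a T r := by
        have : r * gf a T r ^ 2 = kf a T r * (Ff a T r ^ 2 / (T + r)) * kf a T r *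
            (r / (T + r)) := by
          unfold gf; field_simp
        rw [this]
        refine mul_le_of_le_one_right (by positivity) ?_
        rw [div_le_one hTr]; linarith
      have e4 : 0 ≤ kf a T r * (Ff a T r ^ 2 / (T + r)) := by positivity
      calc r * h r ≤ r * gf a T r ^ 2 := mul_le_mul_of_nonneg_left (hh r hr0) hr0
        _ ≤ _ := e3
        _ ≤ _ := mul_le_mul_of_nonneg_left (by linarith) e4
  refine key.trans ?_
  have hR' : -T < R := by linarith
  have h0' : -T < 0 := by linarith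
  have h1 : V R ≤ 0 := by
    have hF := Ff_pos ha hT hR'
    have hk0 := kf_nonneg ha hT hR'
    have : 0 ≤ kf a T R * Ff a T R ^ 2 := by positivity
    simp only [hV]
    nlinarith [sq_nonneg (Ff a T R)]
  have hk : kf a T 0 ≤ 11 / 20 * a := by
    have hY : Yf a T 0 = a := by unfold Yf; simp
    unfold kf
    rw [hY, div_le_iff₀ (by linarith)]
    nlinarith
  have h2 : -V 0 = (1 / 2 * kf a T 0 + a / 4) * Ff a T 0 ^ 2 := by simp only [hV]; ring
  have h3 : (1 / 2 * kf a T 0 + a / 4) * Ff a T 0 ^ 2 ≤ a * Ff a T 0 ^ 2 :=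
    mul_le_mul_of_nonneg_right (by linarith) (sq_nonneg _)
  linarith

end Vale.Agent.P134.H970.Prof
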