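import Mathlib

/-! P134 / ASM : the functions `σ` (smooth positive part) and `cc` (smooth step). -/

set_option linter.all false

open MeasureTheory Set

namespace Vale.Agent.P134.H970.Prof

/-- clamp -/
noncomputable def clm (r : ℝ) : ℝ := max 0 (min 1 r)

lemma cl_cont : Continuous clm := by unfold clm; fun_prop
lemma cl_nonneg (r : ℝ) : 0 ≤ clm r := le_max_left _ _
lemma cl_le (r : ℝ) : clm r ≤ 1 := max_le zero_le_one (min_le_left _ _)
lemma cl_of_nonpos {r : ℝ} (h : r ≤ 0) : clm r = 0 := by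
  unfold clm; rw [min_eq_right (by linarith), max_eq_left h]
lemma cl_of_one_le {r : ℝ} (h : 1 ≤ r) : clm r = 1 := by
  unfold clm; rw [min_eq_left h, max_eq_right zero_le_one]
lemma cl_of_mem {r : ℝ} (h0 : 0 ≤ r) (h1 : r ≤ 1) : clm r = r := by
  unfold clm; rw [min_eq_right h1, max_eq_right h0]

/-- integral of a continuous function is `C¹` -/
lemma cd_int {f : ℝ → ℝ} (hf : Continuous f) : ContDiff ℝ 1 (fun t => ∫ r in (0:ℝ)..t, f r) := by
  have hd : ∀ t, HasDerivAt (fun t => ∫ r in (0:ℝ)..t, f r) (f t) t := fun t =>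
    intervalIntegral.integral_hasDerivAt_right (hf.intervalIntegrable _ _)
      (hf.stronglyMeasurableAtFilter _ _) hf.continuousAt
  rw [contDiff_one_iff_deriv]
  refine ⟨fun t => (hd t).differentiableAt, ?_⟩
  have : deriv (fun t => ∫ r in (0:ℝ)..t, f r) = f := funext fun t => (hd t).deriv
  rw [this]; exact hf

lemma hd_int {f : ℝ → ℝ} (hf : Continuous f) (t : ℝ) :
    HasDerivAt (fun t => ∫ r in (0:ℝ)..t, f r) (f t) t :=
  intervalIntegral.integral_hasDerivAt_right (hf.intervalIntegrable _ _)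
      (hf.stronglyMeasurableAtFilter _ _) hf.continuousAt

/-- `σ` : `0` for `t ≤ 0`, `t²/2` on `[0,1]`, `t - 1/2` for `t ≥ 1`. -/
noncomputable def sg (t : ℝ) : ℝ := ∫ r in (0:ℝ)..t, clm r

lemma sg_cd : ContDiff ℝ 1 sg := cd_int cl_cont
lemma sg_hd (t : ℝ) : HasDerivAt sg (clm t) t := hd_int cl_cont t

lemma sg_of_nonpos {t : ℝ} (h : t ≤ 0) : sg t = 0 := by
  unfold sg
  have : ∫ r in (0:ℝ)..t, clm r = ∫ r in (0:ℝ)..t, (0:ℝ) := by
    refine intervalIntegral.integral_congr fun r hr => ?_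
    rw [uIcc_of_ge h] at hr
    exact cl_of_nonpos hr.2
  rw [this]; simp

lemma sg_of_one_le {t : ℝ} (h : 1 ≤ t) : sg t = t - 1 / 2 := by
  unfold sg
  rw [← intervalIntegral.integral_add_adjacent_intervals (b := 1)
    (cl_cont.intervalIntegrable _ _) (cl_cont.intervalIntegrable _ _)]
  have h1 : ∫ r in (0:ℝ)..1, clm r = ∫ r in (0:ℝ)..1, r := by
    refine intervalIntegral.integral_congr fun r hr => ?_
    rw [uIcc_of_le zero_le_one] at hr
    exact cl_of_mem hr.1 hr.2
  have h2 : ∫ r in (1:ℝ)..t, clm r = ∫ r in (1:ℝ)..t, (1:ℝ) := by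
    refine intervalIntegral.integral_congr fun r hr => ?_
    rw [uIcc_of_le h] at hr
    exact cl_of_one_le hr.1
  rw [h1, h2]
  simp
  ring

lemma sg_mono : Monotone sg :=
  monotone_of_deriv_nonneg (fun t => (sg_hd t).differentiableAt) fun t => by
    rw [(sg_hd t).deriv]; exact cl_nonneg t

lemma sg_nonneg (t : ℝ) : 0 ≤ sg t := by
  rcases le_total t 0 with h | h
  · rw [sg_of_nonpos h]
  · calc (0:ℝ) = sg 0 := (sg_of_nonpos le_rfl).symm
      _ ≤ sg t := sg_mono h

lemma sub_sg_mono : Monotone (fun t => t - sg t) :=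
  monotone_of_deriv_nonneg (fun t => (differentiableAt_id).sub (sg_hd t).differentiableAt)
    fun t => by
      have : HasDerivAt (fun t => t - sg t) (1 - clm t) t := (hasDerivAt_id t).sub (sg_hd t)
      rw [this.deriv]; linarith [cl_le t]

lemma sg_le {t : ℝ} (h : 0 ≤ t) : sg t ≤ t := by
  have := sub_sg_mono h
  simp only at this
  rw [sg_of_nonpos le_rfl] at this
  linarith

lemma le_sg (t : ℝ) : t - 1 / 2 ≤ sg t := by
  rcases le_total 1 t with h | h
  · rw [sg_of_one_le h]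
  · have := sub_sg_mono h
    simp only at this
    rw [sg_of_one_le le_rfl] at this
    linarith

/-- smooth step: `0` for `x ≤ 0`, `1` for `x ≥ 1` -/
noncomputable def stp (x : ℝ) : ℝ := ∫ r in (0:ℝ)..x, 6 * clm r * (1 - clm r)

lemma stp_cc : Continuous fun r => 6 * clm r * (1 - clm r) := by
  have := cl_cont; fun_prop
lemma stp_cd : ContDiff ℝ 1 stp := cd_int stp_cc
lemma stp_hd (t : ℝ) : HasDerivAt stp (6 * clm t * (1 - clm t)) t := hd_int stp_cc t
lemma stp_d_nonneg (t : ℝ) : 0 ≤ 6 * clm t * (1 - clm t) := by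
  have := cl_nonneg t; have := cl_le t; exact mul_nonneg (by positivity) (by linarith)
lemma stp_d_le (t : ℝ) : 6 * clm t * (1 - clm t) ≤ 3 / 2 := by nlinarith [sq_nonneg (clm t - 1 / 2)]
lemma stp_mono : Monotone stp :=
  monotone_of_deriv_nonneg (fun t => (stp_hd t).differentiableAt) fun t => by
    rw [(stp_hd t).deriv]; exact stp_d_nonneg t
lemma stp_of_nonpos {t : ℝ} (h : t ≤ 0) : stp t = 0 := by
  unfold stp
  have : ∫ r in (0:ℝ)..t, 6 * clm r * (1 - clm r) = ∫ r in (0:ℝ)..t, (0:ℝ) := by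
    refine intervalIntegral.integral_congr fun r hr => ?_
    rw [uIcc_of_ge h] at hr
    simp only [cl_of_nonpos hr.2]; ring
  rw [this]; simp
lemma stp_of_one_le {t : ℝ} (h : 1 ≤ t) : stp t = 1 := by
  unfold stp
  rw [← intervalIntegral.integral_add_adjacent_intervals (b := 1)
    (stp_cc.intervalIntegrable _ _) (stp_cc.intervalIntegrable _ _)]
  have h1 : ∫ r in (0:ℝ)..1, 6 * clm r * (1 - clm r) = ∫ r in (0:ℝ)..1, (6 * r - 6 * r ^ 2) := by
    refine intervalIntegral.integral_congr fun r hr => ?_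
    rw [uIcc_of_le zero_le_one] at hr
    simp only [cl_of_mem hr.1 hr.2]; ring
  have h2 : ∫ r in (1:ℝ)..t, 6 * clm r * (1 - clm r) = ∫ r in (1:ℝ)..t, (0:ℝ) := by
    refine intervalIntegral.integral_congr fun r hr => ?_
    rw [uIcc_of_le h] at hr
    simp only [cl_of_one_le hr.1]; ring
  rw [h1, h2, intervalIntegral.integral_sub (Continuous.intervalIntegrable (by fun_prop) _ _)
      (Continuous.intervalIntegrable (by fun_prop) _ _),
    intervalIntegral.integral_const_mul, intervalIntegral.integral_const_mul, integral_id,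
    integral_pow]
  norm_num
lemma stp_nonneg (t : ℝ) : 0 ≤ stp t := by
  rcases le_total t 0 with h | h
  · rw [stp_of_nonpos h]
  · calc (0:ℝ) = stp 0 := (stp_of_nonpos le_rfl).symm
      _ ≤ stp t := stp_mono h
lemma stp_le_one (t : ℝ) : stp t ≤ 1 := by
  rcases le_total t 1 with h | h
  · calc stp t ≤ stp 1 := stp_mono h
      _ = 1 := stp_of_one_le le_rfl
  · rw [stp_of_one_le h]
lemma stp_d_zero {t : ℝ} (h : t ≤ 0) : 6 * clm t * (1 - clm t) = 0 := by
  rw [cl_of_nonpos h]; ring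

/-- cut-off: `1` for `t ≤ A`, `0` for `t ≥ A + B`. -/
noncomputable def ct (A B t : ℝ) : ℝ := 1 - stp ((t - A) / B)

section ct
variable {A B : ℝ}
lemma ct_cd : ContDiff ℝ 1 (ct A B) := by
  unfold ct
  exact contDiff_const.sub (stp_cd.comp (by fun_prop))
lemma ct_hd (t : ℝ) : HasDerivAt (ct A B)
    (-(6 * clm ((t - A) / B) * (1 - clm ((t - A) / B)) / B)) t := by
  have h1 : HasDerivAt (fun t : ℝ => (t - A) / B) (1 / B) t := by
    simpa using ((hasDerivAt_id t).sub_const A).div_const B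
  have h2 := ((stp_hd ((t - A) / B)).comp t h1).const_sub 1
  refine h2.congr_deriv ?_
  ring
lemma ct_nonneg (t : ℝ) : 0 ≤ ct A B t := by unfold ct; linarith [stp_le_one ((t - A) / B)]
lemma ct_le_one (t : ℝ) : ct A B t ≤ 1 := by unfold ct; linarith [stp_nonneg ((t - A) / B)]
lemma ct_anti (hB : 0 < B) : Antitone (ct A B) := by
  intro s t h
  unfold ct
  have := stp_mono (div_le_div_of_nonneg_right (sub_le_sub_right h A) hB.le)
  linarith
lemma ct_one (hB : 0 < B) {t : ℝ} (h : t ≤ A) : ct A B t = 1 := by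
  unfold ct
  rw [stp_of_nonpos (div_nonpos_of_nonpos_of_nonneg (by linarith) hB.le)]; ring
lemma ct_zero (hB : 0 < B) {t : ℝ} (h : A + B ≤ t) : ct A B t = 0 := by
  unfold ct
  rw [stp_of_one_le (by rw [le_div_iff₀ hB]; linarith)]; ring
lemma ct_d_abs (hB : 0 < B) (t : ℝ) : |deriv (ct A B) t| ≤ 2 / B := by
  rw [(ct_hd t).deriv, abs_neg, abs_of_nonneg (div_nonneg (stp_d_nonneg _) hB.le)]
  exact div_le_div_of_nonneg_right (by linarith [stp_d_le ((t - A) / B)]) hB.le
lemma ct_d_zero (hB : 0 < B) {t : ℝ} (h : t ≤ A) : deriv (ct A B) t = 0 := by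
  rw [(ct_hd t).deriv, stp_d_zero (div_nonpos_of_nonpos_of_nonneg (by linarith) hB.le)]
  simp
end ct

end Vale.Agent.P134.H970.Prof
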