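import Vale.Agent.P134.ASM.Defs
import Vale.Agent.P134.H970.Prof1
import Vale.Agent.P134.H970.Prof2

/-! P134 / ASM : the block `StPROF`. -/

set_option linter.all false

open MeasureTheory Set Filter Topology

namespace Vale.Agent.P134.H970

open Prof

namespace Prof

variable {a T : ℝ}

lemma cd_Yf (ha : 0 < a) (hT : 0 < T) {t : ℝ} (ht : -T < t) : ContDiffAt ℝ 1 (Yf a T) t := by
  unfold Yf
  refine contDiffAt_const.mul (ContDiffAt.rpow_const_of_ne ?_ (s_pos hT ht).ne')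
  exact contDiffAt_const.add (contDiffAt_id.div_const T)

lemma cd_kf (ha : 0 < a) (hT : 0 < T) {t : ℝ} (ht : -T < t) : ContDiffAt ℝ 1 (kf a T) t := by
  have hY := Yf_pos ha hT ht
  unfold kf
  exact (contDiffAt_const.mul (cd_Yf ha hT ht)).div (contDiffAt_const.add (cd_Yf ha hT ht))
    (by linarith)

lemma cd_Ff (ha : 0 < a) (hT : 0 < T) {t : ℝ} (ht : -T < t) : ContDiffAt ℝ 1 (Ff a T) t := by
  have hY := Yf_pos ha hT ht
  unfold Ff
  exact ContDiffAt.rpow_const_of_ne (contDiffAt_const.add (cd_Yf ha hT ht)) (by linarith)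

lemma cd_gf (ha : 0 < a) (hT : 0 < T) {t : ℝ} (ht : -T < t) : ContDiffAt ℝ 1 (gf a T) t := by
  unfold gf
  exact ((cd_kf ha hT ht).mul (cd_Ff ha hT ht)).div (contDiffAt_const.add contDiffAt_id)
    (by linarith)

/-- `F(s) ≤ e^{(t-s)/T} F(t)` for `0 ≤ s ≤ t`. -/
lemma Ff_shift (ha : 0 < a) (hT : 0 < T) {s t c : ℝ} (hs : 0 ≤ s) (hst : s ≤ t)
    (hc : t - s ≤ c) : Ff a T s ≤ Real.exp (c / T) * Ff a T t := by
  have h := expF_mono ha hT (mem_Ici.mpr hs) (mem_Ici.mpr (hs.trans hst)) hst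
  simp only at h
  have h1 : Real.exp (-(s / T)) * (Real.exp (s / T) * Ff a T s) = Ff a T s := by
    rw [← mul_assoc, ← Real.exp_add]; simp
  have hF := Ff_pos ha hT (by linarith : -T < t)
  calc Ff a T s = Real.exp (-(s / T)) * (Real.exp (s / T) * Ff a T s) := h1.symm
    _ ≤ Real.exp (-(s / T)) * (Real.exp (t / T) * Ff a T t) :=
        mul_le_mul_of_nonneg_left h (Real.exp_pos _).le
    _ = Real.exp ((t - s) / T) * Ff a T t := by
        rw [← mul_assoc, ← Real.exp_add]; congr 2; ring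
    _ ≤ _ := by
        gcongr

/-- `F((1-e)t) ≤ ((1+e)/(1-e)) F((1+e)t)`. -/
lemma Ff_dil (ha : 0 < a) (hT : 0 < T) {e t : ℝ} (he : 0 < e) (he1 : e ≤ 1 / 1000) (ht : 0 ≤ t) :
    Ff a T ((1 - e) * t) ≤ 1002 / 1000 * 1001 / 1000 * Ff a T ((1 + e) * t) := by
  have h0 : 0 ≤ (1 - e) * t := mul_nonneg (by linarith) ht
  have h1 : (1 - e) * t ≤ (1 + e) * t := by nlinarith
  have h := mulF_mono ha hT (mem_Ici.mpr h0) (mem_Ici.mpr (h0.trans h1)) h1
  simp only at h
  have hF1 := Ff_pos ha hT (by linarith : -T < (1 - e) * t)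
  have hF2 := Ff_pos ha hT (by linarith : -T < (1 + e) * t)
  have h2 : T + (1 + e) * t ≤ 1002 / 1000 * 1001 / 1000 * (T + (1 - e) * t) := by nlinarith
  have h3 : (T + (1 - e) * t) * Ff a T ((1 - e) * t) ≤
      (T + (1 - e) * t) * (1002 / 1000 * 1001 / 1000 * Ff a T ((1 + e) * t)) := by
    calc _ ≤ (T + (1 + e) * t) * Ff a T ((1 + e) * t) := h
      _ ≤ (1002 / 1000 * 1001 / 1000 * (T + (1 - e) * t)) * Ff a T ((1 + e) * t) :=
          mul_le_mul_of_nonneg_right h2 hF2.le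
      _ = _ := by ring
  exact le_of_mul_le_mul_left h3 (by linarith)

lemma exp_le' {x : ℝ} (h0 : 0 ≤ x) (h1 : x ≤ 1 / 100) : Real.exp x ≤ 1 + 102 / 100 * x := by
  have h2 : 1 - x ≤ Real.exp (-x) := by
    have := Real.add_one_le_exp (-x); linarith
  have h3 : Real.exp x * Real.exp (-x) = 1 := by rw [← Real.exp_add]; simp
  have h4 : Real.exp x * (1 - x) ≤ 1 :=
    (mul_le_mul_of_nonneg_left h2 (Real.exp_pos x).le).trans h3.le
  nlinarith [Real.exp_pos x]

lemma exists_R (ha : 0 < a) (hT : 0 < T) {N q M : ℝ} (hN : 0 < N) (hq : 0 < q) :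
    ∃ R : ℝ, M ≤ R ∧ (Ff a T (R / 2) / N) ^ 2 * R ≤ q := by
  have hx : Tendsto (fun R : ℝ => R / 2 / T) atTop atTop :=
    (tendsto_id.atTop_div_const (by norm_num)).atTop_div_const hT
  have h1 : Tendsto (fun R : ℝ => (R / 2 / T) ^ (-(1 / 10) : ℝ)) atTop (𝓝 0) :=
    (tendsto_rpow_neg_atTop (by norm_num : (0:ℝ) < 1 / 10)).comp hx
  have h2 : Tendsto (fun R : ℝ => (a ^ (-(11 / 20) / a) / N) ^ 2 * (2 * T) *
      (R / 2 / T) ^ (-(1 / 10) : ℝ)) atTop (𝓝 0) := by
    have := h1.const_mul ((a ^ (-(11 / 20) / a) / N) ^ 2 * (2 * T))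
    simpa using this
  have h3 : ∀ᶠ R : ℝ in atTop, (a ^ (-(11 / 20) / a) / N) ^ 2 * (2 * T) *
      (R / 2 / T) ^ (-(1 / 10) : ℝ) < q := h2.eventually_lt_const hq
  obtain ⟨R, hR1, hR2⟩ := (h3.and (eventually_ge_atTop (max M 1))).exists
  have hRM : M ≤ R := (le_max_left _ _).trans hR2
  have hR0 : 0 < R := lt_of_lt_of_le one_pos ((le_max_right _ _).trans hR2)
  refine ⟨R, hRM, le_trans ?_ hR1.le⟩
  have hF := Ff_le ha hT (by linarith : 0 < R / 2)
  have hF0 := Ff_pos ha hT (by linarith : -T < R / 2)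
  set x := R / 2 / T with hxd
  have hx0 : 0 < x := by positivity
  have e1 : R = 2 * T * x := by rw [hxd]; field_simp
  have e2 : (x ^ (-(11 / 20) : ℝ)) ^ 2 * x = x ^ (-(1 / 10) : ℝ) := by
    rw [← Real.rpow_natCast, ← Real.rpow_mul hx0.le]
    nth_rewrite 2 [← Real.rpow_one x]
    rw [← Real.rpow_add hx0]
    norm_num
  calc (Ff a T (R / 2) / N) ^ 2 * R
      ≤ (a ^ (-(11 / 20) / a) * x ^ (-(11 / 20) : ℝ) / N) ^ 2 * R := by
        gcongr
    _ = (a ^ (-(11 / 20) / a) / N) ^ 2 * (2 * T) * ((x ^ (-(11 / 20) : ℝ)) ^ 2 * x) := by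
        have e3 : (a ^ (-(11 / 20) / a) * x ^ (-(11 / 20) : ℝ) / N) ^ 2 * R =
          (a ^ (-(11 / 20) / a) * x ^ (-(11 / 20) : ℝ) / N) ^ 2 * (2 * T * x) := by
            rw [← e1]
        rw [e3]; ring
    _ = _ := by rw [e2]

/-- the parameters -/
structure Par (e C q a T N R1 : ℝ) : Prop where
  he : 0 < e
  he1 : e ≤ 1 / 1000
  hC : 1 ≤ C
  hq0 : 0 < q
  hq1 : q ≤ 1
  ha' : a = q / 200
  hTq : T * q = 1000 * (C + 3)
  hNd : N = Ff a T ((1 + e) * 2 + C)
  hR1q : 4 * (C + 10) ≤ q * R1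
  hRA : (Ff a T (R1 / 2) / N) ^ 2 * R1 ≤ q / 100

noncomputable def hf (a T N R1 z : ℝ) : ℝ :=
  (gf a T (1 / 2 + sg z) / N) ^ 2 * ct (R1 / 2) (R1 / 2) z
noncomputable def Pf (e C a T N R1 t : ℝ) : ℝ :=
  Ff a T ((1 + e) * (sg t + 2) + C) / N * ct (2 * R1) (2 * R1) t

section par
variable {e C q a T N R1 : ℝ}

lemma exists_Par (he : 0 < e) (he1 : e ≤ 1 / 1000) (hC : 1 ≤ C) (hq0 : 0 < q) (hq1 : q ≤ 1) :
    ∃ a T N R1, Par e C q a T N R1 := by
  have ha : 0 < q / 200 := by positivity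
  have hT : 0 < 1000 * (C + 3) / q := by positivity
  have hN : 0 < Ff (q / 200) (1000 * (C + 3) / q) ((1 + e) * 2 + C) :=
    Ff_pos ha hT (by linarith [mul_pos he he, hT])
  obtain ⟨R1, h1, h2⟩ := exists_R (q := q / 100) (M := 4 * (C + 10) / q) ha hT hN (by positivity)
  exact ⟨q / 200, 1000 * (C + 3) / q, _, R1, he, he1, hC, hq0, hq1, rfl, by field_simp, rfl,
    by rwa [div_le_iff₀' hq0] at h1, h2⟩

namespace Par

variable (p : Par e C q a T N R1)
include p

lemma ha : 0 < a := by rw [p.ha']; have := p.hq0; positivity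
lemma ha1 : a ≤ 1 / 100 := by rw [p.ha']; linarith [p.hq1]
lemma hT1 : 1000 * (C + 3) ≤ T := by
  have h1 := p.hTq
  have h2 := p.hq0
  have h3 := p.hq1
  have h4 := p.hC
  have hT : 0 < T := by
    by_contra h
    push Not at h
    nlinarith
  nlinarith
lemma hT : 0 < T := by have := p.hT1; have := p.hC; linarith
lemma z0p : 0 < (1 + e) * 2 + C := by have := p.he; have := p.hC; positivity
lemma z0' : (1 + e) * 2 + C ≤ C + 3 := by have := p.he1; linarith
lemma hN : 0 < N := by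
  rw [p.hNd]; exact Ff_pos p.ha p.hT (by have := p.z0p; have := p.hT; linarith)
lemma hR0 : 0 < R1 := by
  have h1 := p.hR1q
  have h2 := p.hC
  have h3 := p.hq0
  by_contra h
  push Not at h
  nlinarith
lemma hR1 : 4 * (C + 10) ≤ R1 := by
  have h1 := p.hR1q
  have h3 := p.hq1
  have h4 := p.hR0
  nlinarith
lemma hR12 : 0 < R1 / 2 := by have := p.hR0; linarith
lemma h2R : 0 < 2 * R1 := by have := p.hR0; linarith

lemma F0N : Ff a T 0 ≤ 101 / 100 * N := by
  have hT := p.hT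
  have hT1 := p.hT1
  have hC := p.hC
  have h1 := Ff_shift p.ha hT le_rfl p.z0p.le (by have := p.z0'; linarith :
    (1 + e) * 2 + C - 0 ≤ C + 3)
  rw [← p.hNd] at h1
  have h2 : (C + 3) / T ≤ 1 / 1000 := by rw [div_le_iff₀ hT]; linarith
  have h3 := exp_le' (x := (C + 3) / T) (by positivity) (by linarith)
  exact h1.trans (mul_le_mul_of_nonneg_right (by linarith) p.hN.le)

/-- bounds beyond `R1/2` -/
lemma gR {z : ℝ} (hz : R1 / 2 ≤ z) :
    (gf a T z / N) ^ 2 ≤ 4 * (Ff a T (R1 / 2) / N) ^ 2 / R1 ^ 2 := by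
  have ha := p.ha
  have ha1 := p.ha1
  have hT := p.hT
  have hR0 := p.hR0
  have hN := p.hN
  have h0 := gf_nonneg ha hT (by linarith : -T < z)
  have h1 : gf a T z ≤ gf a T (R1 / 2) :=
    gf_antitone ha (by linarith) hT (mem_Ici.mpr (by linarith)) (mem_Ici.mpr (by linarith)) hz
  have h2 : gf a T (R1 / 2) ≤ 2 * Ff a T (R1 / 2) / R1 := by
    have hk := kf_le ha hT (by linarith : -T < R1 / 2)
    have hk0 := kf_nonneg ha hT (by linarith : -T < R1 / 2)
    have hF := Ff_pos ha hT (by linarith : -T < R1 / 2)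
    unfold gf
    rw [div_le_div_iff₀ (by linarith) hR0]
    have : kf a T (R1 / 2) * Ff a T (R1 / 2) * R1 ≤ 1 * Ff a T (R1 / 2) * R1 := by
      gcongr; linarith
    nlinarith [mul_pos hF hT]
  have h3 : gf a T z / N ≤ 2 * (Ff a T (R1 / 2) / N) / R1 := by
    calc gf a T z / N ≤ 2 * Ff a T (R1 / 2) / R1 / N :=
          div_le_div_of_nonneg_right (h1.trans h2) hN.le
      _ = _ := by ring
  calc (gf a T z / N) ^ 2 ≤ (2 * (Ff a T (R1 / 2) / N) / R1) ^ 2 := by
        gcongr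
    _ = 4 * (Ff a T (R1 / 2) / N) ^ 2 / R1 ^ 2 := by ring

lemma FR {z : ℝ} (hz : R1 / 2 ≤ z) : (Ff a T z / N) ^ 2 ≤ (Ff a T (R1 / 2) / N) ^ 2 := by
  have hT := p.hT
  have hR0 := p.hR0
  have hN := p.hN
  have h0 := Ff_pos p.ha hT (by linarith : -T < z)
  have h1 : Ff a T z ≤ Ff a T (R1 / 2) :=
    Ff_antitone p.ha hT (mem_Ici.mpr (by linarith)) (mem_Ici.mpr (by linarith)) hz
  gcongr

lemma gF {z : ℝ} (hz : 0 ≤ z) : gf a T z / N ≤ Ff a T z / N / T := by
  have hT := p.hT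
  have hN := p.hN
  have hk := kf_le p.ha hT (by linarith : -T < z)
  have hk0 := kf_nonneg p.ha hT (by linarith : -T < z)
  have hF := Ff_pos p.ha hT (by linarith : -T < z)
  have : gf a T z ≤ Ff a T z / T := by
    unfold gf
    apply div_le_div₀ hF.le _ hT (by linarith)
    nlinarith
  calc gf a T z / N ≤ Ff a T z / T / N := div_le_div_of_nonneg_right this hN.le
    _ = _ := by ring

lemma hw (z : ℝ) : -T < 1 / 2 + sg z := by
  have := sg_nonneg z; have := p.hT; linarith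

lemma hw2 (t : ℝ) : (1 + e) * 2 + C ≤ (1 + e) * (sg t + 2) + C := by
  have h := sg_nonneg t
  have he := p.he
  nlinarith

lemma c1 : ContDiff ℝ 1 (hf a T N R1) := by
  unfold hf
  refine ContDiff.mul ?_ ct_cd
  refine ContDiff.pow (ContDiff.div_const ?_ _) 2
  rw [contDiff_iff_contDiffAt]
  intro z
  exact ContDiffAt.comp z (cd_gf p.ha p.hT (p.hw z)) (contDiffAt_const.add sg_cd.contDiffAt)

lemma c2 (t : ℝ) : 0 ≤ hf a T N R1 t := mul_nonneg (sq_nonneg _) (ct_nonneg t)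

lemma hle {r : ℝ} (hr : 0 ≤ r) : hf a T N R1 r ≤ (gf a T r / N) ^ 2 := by
  have hT := p.hT
  have hN := p.hN
  have h0 := gf_nonneg p.ha hT (p.hw r)
  have h1 : gf a T (1 / 2 + sg r) ≤ gf a T r :=
    gf_antitone p.ha (by have := p.ha1; linarith) hT (mem_Ici.mpr hr)
      (mem_Ici.mpr (by have := sg_nonneg r; linarith)) (by have := le_sg r; linarith)
  calc hf a T N R1 r ≤ (gf a T (1 / 2 + sg r) / N) ^ 2 * 1 :=
        mul_le_mul_of_nonneg_left (ct_le_one r) (sq_nonneg _)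
    _ ≤ (gf a T r / N) ^ 2 := by rw [mul_one]; gcongr

lemma c3 : AntitoneOn (hf a T N R1) (Ici 0) := by
  intro s hs t ht hst
  have hT := p.hT
  have hN := p.hN
  have h0 := gf_nonneg p.ha hT (p.hw t)
  have h1 : gf a T (1 / 2 + sg t) ≤ gf a T (1 / 2 + sg s) :=
    gf_antitone p.ha (by have := p.ha1; linarith) hT
      (mem_Ici.mpr (by have := sg_nonneg s; linarith))
      (mem_Ici.mpr (by have := sg_nonneg t; linarith)) (by have := sg_mono hst; linarith)
  unfold hf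
  refine mul_le_mul ?_ (ct_anti p.hR12 hst) (ct_nonneg t) (sq_nonneg _)
  gcongr

lemma c4 {t : ℝ} (ht : R1 ≤ t) : hf a T N R1 t = 0 := by
  unfold hf
  rw [ct_zero p.hR12 (by linarith)]; ring

lemma hhd (t : ℝ) : HasDerivAt (hf a T N R1) (2 * (gf a T (1 / 2 + sg t) / N) *
    (gf a T (1 / 2 + sg t) * (a / (1 + Yf a T (1 / 2 + sg t)) - kf a T (1 / 2 + sg t) - 1) /
      (T + (1 / 2 + sg t)) * clm t / N) * ct (R1 / 2) (R1 / 2) t +
    (gf a T (1 / 2 + sg t) / N) ^ 2 * deriv (ct (R1 / 2) (R1 / 2)) t) t := by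
  have h1 : HasDerivAt (fun t => 1 / 2 + sg t) (clm t) t := (sg_hd t).const_add _
  have h2 := ((hasDerivAt_gf p.ha p.hT (p.hw t)).comp t h1).div_const N
  have h3 := (h2.pow 2).mul (ct_hd (A := R1 / 2) (B := R1 / 2) t)
  refine h3.congr_deriv ?_
  rw [(ct_hd (A := R1 / 2) (B := R1 / 2) t).deriv]
  simp only [Function.comp, Pi.pow_apply, Nat.cast_ofNat, Nat.add_one_sub_one, pow_one]

lemma c5 {t : ℝ} (ht : 0 ≤ t) :
    |deriv (hf a T N R1) t| ≤ q * hf a T N R1 t + q / R1 ^ 3 := by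
  rw [(p.hhd t).deriv]
  set w := 1 / 2 + sg t with hwd
  have ha := p.ha
  have hT := p.hT
  have hR0 := p.hR0
  have hq0 := p.hq0
  have hTq := p.hTq
  have hC := p.hC
  have hwt : -T < w := p.hw t
  have hw0 : 0 ≤ w := by have := sg_nonneg t; rw [hwd]; linarith
  have hY := Yf_pos ha hT hwt
  have hk := kf_le ha hT hwt
  have hk0 := kf_nonneg ha hT hwt
  have ha2 : a / (1 + Yf a T w) ≤ 1 := by
    rw [div_le_one (by linarith)]; have := p.ha1; linarith
  have ha3 : 0 ≤ a / (1 + Yf a T w) := by positivity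
  have hcl := cl_nonneg t
  have hcl1 := cl_le t
  have hc0 := ct_nonneg (A := R1 / 2) (B := R1 / 2) t
  set y := gf a T w / N with hy
  have hy2 : 0 ≤ y ^ 2 := sq_nonneg _
  have hTw : 0 < T + w := by linarith
  have hh : hf a T N R1 t = y ^ 2 * ct (R1 / 2) (R1 / 2) t := rfl
  have b1 : |2 * y * (gf a T w * (a / (1 + Yf a T w) - kf a T w - 1) / (T + w) * clm t / N) *
      ct (R1 / 2) (R1 / 2) t| ≤ q * hf a T N R1 t := by
    have e1 : 2 * y * (gf a T w * (a / (1 + Yf a T w) - kf a T w - 1) / (T + w) * clm t / N) *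
      ct (R1 / 2) (R1 / 2) t = -(2 * (1 + kf a T w - a / (1 + Yf a T w)) / (T + w) * clm t *
        (y ^ 2 * ct (R1 / 2) (R1 / 2) t)) := by rw [hy]; ring
    rw [e1, abs_neg, abs_of_nonneg (by
      have : 0 ≤ 1 + kf a T w - a / (1 + Yf a T w) := by linarith
      positivity), hh]
    refine mul_le_mul_of_nonneg_right ?_ (by positivity)
    have e2 : 2 * (1 + kf a T w - a / (1 + Yf a T w)) / (T + w) ≤ q := by
      rw [div_le_iff₀ hTw]
      have h5 : q * T ≤ q * (T + w) := mul_le_mul_of_nonneg_left (by linarith) hq0.le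
      have h6 : q * T = 1000 * (C + 3) := by rw [mul_comm]; exact hTq
      linarith
    calc _ ≤ q * 1 := mul_le_mul e2 hcl1 hcl hq0.le
      _ = q := mul_one _
  have b2 : |y ^ 2 * deriv (ct (R1 / 2) (R1 / 2)) t| ≤ q / R1 ^ 3 := by
    rcases le_total t (R1 / 2) with h1 | h1
    · rw [ct_d_zero p.hR12 h1]; simp; positivity
    · rw [abs_mul, abs_of_nonneg hy2]
      have h3 := ct_d_abs (A := R1 / 2) p.hR12 t
      have h4 := p.gR (z := w) (by have := le_sg t; rw [hwd]; linarith)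
      have hRA := p.hRA
      set A := (Ff a T (R1 / 2) / N) ^ 2 with hA
      have hA0 : 0 ≤ A := sq_nonneg _
      have hR1 := p.hR1
      have hA1 : A ≤ q / 100 := by nlinarith
      calc y ^ 2 * |deriv (ct (R1 / 2) (R1 / 2)) t| ≤ (4 * A / R1 ^ 2) * (2 / (R1 / 2)) :=
            mul_le_mul h4 h3 (abs_nonneg _) (by positivity)
        _ = 16 * A / R1 ^ 3 := by field_simp; ring
        _ ≤ q / R1 ^ 3 := by
            apply div_le_div_of_nonneg_right _ (by positivity)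
            linarith
  exact (abs_add_le _ _).trans (add_le_add b1 b2)

lemma c6 : ContDiff ℝ 1 (Pf e C a T N R1) := by
  unfold Pf
  refine ContDiff.mul (ContDiff.div_const ?_ _) ct_cd
  rw [contDiff_iff_contDiffAt]
  intro t
  refine ContDiffAt.comp t (cd_Ff p.ha p.hT (by
    have := p.hw2 t; have := p.z0p; have := p.hT; linarith)) ?_
  exact (contDiffAt_const.mul (sg_cd.contDiffAt.add contDiffAt_const)).add contDiffAt_const

lemma F1 (t : ℝ) : Ff a T ((1 + e) * (sg t + 2) + C) / N ≤ 1 := by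
  rw [div_le_one p.hN, p.hNd]
  exact Ff_antitone p.ha p.hT (mem_Ici.mpr p.z0p.le) (mem_Ici.mpr (p.z0p.le.trans (p.hw2 t)))
    (p.hw2 t)

lemma F1p (t : ℝ) : 0 < Ff a T ((1 + e) * (sg t + 2) + C) / N :=
  div_pos (Ff_pos p.ha p.hT (by
    have := p.hw2 t; have := p.z0p; have := p.hT; linarith)) p.hN

lemma c7 (t : ℝ) : 0 ≤ Pf e C a T N R1 t ∧ Pf e C a T N R1 t ≤ 1 :=
  ⟨mul_nonneg (p.F1p t).le (ct_nonneg t), mul_le_one₀ (p.F1 t) (ct_nonneg t) (ct_le_one t)⟩

lemma c8 {t : ℝ} (ht : t ≤ 0) : Pf e C a T N R1 t = 1 := by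
  unfold Pf
  rw [sg_of_nonpos ht, ct_one p.h2R (by have := p.hR0; linarith), mul_one, zero_add, ← p.hNd]
  exact div_self p.hN.ne'

lemma c9 {t : ℝ} (ht : 4 * R1 ≤ t) : Pf e C a T N R1 t = 0 := by
  unfold Pf
  rw [ct_zero p.h2R (by linarith), mul_zero]

lemma hPd (t : ℝ) : HasDerivAt (Pf e C a T N R1)
    (-(gf a T ((1 + e) * (sg t + 2) + C) / N * ((1 + e) * clm t) * ct (2 * R1) (2 * R1) t) +
      Ff a T ((1 + e) * (sg t + 2) + C) / N * deriv (ct (2 * R1) (2 * R1)) t) t := by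
  have h1 : HasDerivAt (fun t => (1 + e) * (sg t + 2) + C) ((1 + e) * clm t) t :=
    (((sg_hd t).add_const 2).const_mul (1 + e)).add_const C
  have h2 := ((hasDerivAt_Ff p.ha p.hT (by
    have := p.hw2 t; have := p.z0p; have := p.hT; linarith)).comp t h1).div_const N
  have h3 := h2.mul (ct_hd (A := 2 * R1) (B := 2 * R1) t)
  refine h3.congr_deriv ?_
  rw [(ct_hd (A := 2 * R1) (B := 2 * R1) t).deriv]
  simp only [Function.comp]
  ring

/-- the derivative of `P` is at most the sum of the two parts -/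
lemma dP_abs (t : ℝ) : |deriv (Pf e C a T N R1) t| ≤
    gf a T ((1 + e) * (sg t + 2) + C) / N * (1 + e) +
      Ff a T ((1 + e) * (sg t + 2) + C) / N * |deriv (ct (2 * R1) (2 * R1)) t| := by
  rw [(p.hPd t).deriv]
  have he := p.he
  have hw2 := p.hw2 t
  have hz := p.z0p
  have hT := p.hT
  have hg : 0 ≤ gf a T ((1 + e) * (sg t + 2) + C) / N :=
    div_nonneg (gf_nonneg p.ha hT (by linarith)) p.hN.le
  have hcl := cl_nonneg t
  have hcl1 := cl_le t
  have hc0 := ct_nonneg (A := 2 * R1) (B := 2 * R1) t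
  have hc1 := ct_le_one (A := 2 * R1) (B := 2 * R1) t
  refine (abs_add_le _ _).trans (add_le_add ?_ ?_)
  · rw [abs_neg, abs_of_nonneg (by positivity)]
    calc _ ≤ gf a T ((1 + e) * (sg t + 2) + C) / N * ((1 + e) * 1) * 1 := by gcongr
      _ = _ := by ring
  · rw [abs_mul, abs_of_nonneg (p.F1p t).le]

lemma c10 (t : ℝ) : |deriv (Pf e C a T N R1) t| ≤ q := by
  refine (p.dP_abs t).trans ?_
  have he := p.he
  have he1 := p.he1
  have hw2 := p.hw2 t
  have hz := p.z0p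
  have hT := p.hT
  have hT1 := p.hT1
  have hTq := p.hTq
  have hq0 := p.hq0
  have hC := p.hC
  have hR1 := p.hR1
  have hR0 := p.hR0
  have hF1 := p.F1 t
  have hF1p := p.F1p t
  have h1 := p.gF (z := (1 + e) * (sg t + 2) + C) (by linarith)
  have hTinv : 1 / T ≤ q / 1000 := by
    rw [div_le_div_iff₀ hT (by norm_num)]
    nlinarith
  have h2 : Ff a T ((1 + e) * (sg t + 2) + C) / N / T ≤ 1 / T :=
    div_le_div_of_nonneg_right hF1 hT.le
  have hg : 0 ≤ gf a T ((1 + e) * (sg t + 2) + C) / N :=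
    div_nonneg (gf_nonneg p.ha hT (by linarith)) p.hN.le
  have h3 : gf a T ((1 + e) * (sg t + 2) + C) / N * (1 + e) ≤ q / 1000 * 2 :=
    mul_le_mul (by linarith) (by linarith) (by linarith) (by linarith)
  rcases le_total t (2 * R1) with h | h
  · rw [ct_d_zero p.h2R h]
    simp only [abs_zero, mul_zero, add_zero]
    linarith
  · -- here `t ≥ 2 R1`, `F` small
    have h4 := ct_d_abs (A := 2 * R1) p.h2R t
    have h6 : Ff a T ((1 + e) * (sg t + 2) + C) / N * (2 / (2 * R1)) ≤ q / 2 := by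
      set y := Ff a T ((1 + e) * (sg t + 2) + C) / N with hy
      have e1 : y * (2 / (2 * R1)) = y / R1 := by field_simp
      have h8 := p.hR1q
      rw [e1, div_le_iff₀ hR0]
      linarith
    have h7 : Ff a T ((1 + e) * (sg t + 2) + C) / N * |deriv (ct (2 * R1) (2 * R1)) t| ≤ q / 2 :=
      (mul_le_mul_of_nonneg_left h4 hF1p.le).trans h6
    linarith

lemma R_le_w {t : ℝ} (ht : R1 / 2 ≤ (1 + e) * (t + 1) + C) (ht0 : 0 ≤ t) :
    R1 / 2 ≤ (1 + e) * (sg t + 2) + C := by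
  have := le_sg t
  have he := p.he
  nlinarith

lemma c11 {t : ℝ} (ht : 0 ≤ t) : deriv (Pf e C a T N R1) t ^ 2 ≤
    (1 + 10 * e + q) * hf a T N R1 ((1 + e) * (t + 1) + C) + q / R1 ^ 3 := by
  have hd := p.dP_abs t
  have he := p.he
  have he1 := p.he1
  have hw2 := p.hw2 t
  have hz := p.z0p
  have hT := p.hT
  have hq0 := p.hq0
  have hC := p.hC
  have hR1 := p.hR1
  have hR0 := p.hR0
  have hN := p.hN
  have hF1p := p.F1p t
  have hsg := le_sg t
  have hg : 0 ≤ gf a T ((1 + e) * (sg t + 2) + C) / N :=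
    div_nonneg (gf_nonneg p.ha hT (by linarith)) p.hN.le
  have hh0 := p.c2 ((1 + e) * (t + 1) + C)
  rcases le_total ((1 + e) * (t + 1) + C) (R1 / 2) with h | h
  · -- inner region
    have ht2 : t ≤ 2 * R1 := by nlinarith
    rw [ct_d_zero p.h2R ht2, abs_zero, mul_zero, add_zero] at hd
    have h1 : gf a T ((1 + e) * (sg t + 2) + C) ≤ gf a T ((1 + e) * (t + 1) + C) :=
      gf_antitone p.ha (by have := p.ha1; linarith) hT (mem_Ici.mpr (by positivity))
        (mem_Ici.mpr (by linarith)) (by nlinarith)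
    have h2 : hf a T N R1 ((1 + e) * (t + 1) + C) = (gf a T ((1 + e) * (t + 1) + C) / N) ^ 2 := by
      unfold hf
      rw [ct_one p.hR12 h, sg_of_one_le (by nlinarith)]
      ring_nf
    rw [h2]
    have h3 : gf a T ((1 + e) * (sg t + 2) + C) / N ≤ gf a T ((1 + e) * (t + 1) + C) / N :=
      div_le_div_of_nonneg_right h1 hN.le
    set y := gf a T ((1 + e) * (t + 1) + C) / N with hy
    have hy0 : 0 ≤ y := hg.trans h3
    have h4 : |deriv (Pf e C a T N R1) t| ≤ y * (1 + e) :=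
      hd.trans (mul_le_mul_of_nonneg_right h3 (by linarith))
    have h5 : deriv (Pf e C a T N R1) t ^ 2 ≤ (y * (1 + e)) ^ 2 := by
      rw [← sq_abs]; gcongr
    have h6 : (1 + e) ^ 2 ≤ 1 + 10 * e + q := by nlinarith
    have h7 : 0 ≤ q / R1 ^ 3 := by positivity
    nlinarith [mul_le_mul_of_nonneg_left h6 (sq_nonneg y)]
  · have hw := p.R_le_w h ht
    have h1 := p.gR hw
    have h2 := p.FR hw
    have h3 := ct_d_abs (A := 2 * R1) p.h2R t
    have hRA := p.hRA
    set A := (Ff a T (R1 / 2) / N) ^ 2 with hA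
    have hA0 : 0 ≤ A := sq_nonneg _
    set y := gf a T ((1 + e) * (sg t + 2) + C) / N with hy
    set z := Ff a T ((1 + e) * (sg t + 2) + C) / N with hz'
    have h4 : |deriv (Pf e C a T N R1) t| ≤ 2 * y + z / R1 := by
      refine hd.trans ?_
      have e1 : z * (2 / (2 * R1)) = z / R1 := by field_simp
      have := mul_le_mul_of_nonneg_left h3 hF1p.le
      rw [e1] at this
      nlinarith
    have h5 : deriv (Pf e C a T N R1) t ^ 2 ≤ (2 * y + z / R1) ^ 2 := by
      rw [← sq_abs]; gcongr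
    have h6 : (2 * y + z / R1) ^ 2 ≤ 2 * (4 * y ^ 2) + 2 * (z ^ 2 / R1 ^ 2) := by
      have : (z / R1) ^ 2 = z ^ 2 / R1 ^ 2 := by ring
      nlinarith [sq_nonneg (2 * y - z / R1)]
    have h7 : z ^ 2 / R1 ^ 2 ≤ A / R1 ^ 2 := div_le_div_of_nonneg_right h2 (by positivity)
    have h8 : 2 * (4 * y ^ 2) + 2 * (z ^ 2 / R1 ^ 2) ≤ 34 * A / R1 ^ 2 := by
      have : 4 * A / R1 ^ 2 = 4 * (A / R1 ^ 2) := by ring
      have : 34 * A / R1 ^ 2 = 34 * (A / R1 ^ 2) := by ring
      linarith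
    have h9 : 34 * A / R1 ^ 2 ≤ q / R1 ^ 3 := by
      rw [div_le_div_iff₀ (by positivity) (by positivity)]
      have : 34 * A * R1 ^ 3 = 34 * (A * R1) * R1 ^ 2 := by ring
      rw [this]
      gcongr
      linarith
    have h10 : 0 ≤ (1 + 10 * e + q) * hf a T N R1 ((1 + e) * (t + 1) + C) :=
      mul_nonneg (by linarith) hh0
    linarith

lemma P_lower {t : ℝ} (ht : 0 ≤ t) (ht2 : t ≤ 2 * R1) :
    Ff a T ((1 + e) * (t + 2) + C) / N ≤ Pf e C a T N R1 t := by
  unfold Pf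
  rw [ct_one p.h2R ht2, mul_one]
  refine div_le_div_of_nonneg_right ?_ p.hN.le
  have := sg_le ht
  have he := p.he
  have hw2 := p.hw2 t
  have hz := p.z0p
  have hC := p.hC
  exact Ff_antitone p.ha p.hT (mem_Ici.mpr (by linarith)) (mem_Ici.mpr (by positivity))
    (by nlinarith)

lemma c12 {t : ℝ} (ht : 0 ≤ t) : hf a T N R1 ((1 + e) * (t + 1) + C) ≤
    q * Pf e C a T N R1 t ^ 2 := by
  have he := p.he
  have he1 := p.he1
  have hT := p.hT
  have hT1 := p.hT1
  have hTq := p.hTq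
  have hq0 := p.hq0
  have hC := p.hC
  have hR0 := p.hR0
  have hN := p.hN
  rcases le_total R1 ((1 + e) * (t + 1) + C) with h | h
  · rw [p.c4 h]; positivity
  · have ht2 : t ≤ 2 * R1 := by nlinarith
    have hP := p.P_lower ht ht2
    have h0 : 0 ≤ (1 + e) * (t + 1) + C := by positivity
    have h1 := p.hle h0
    have h2 := p.gF h0
    have h3 := Ff_shift p.ha hT h0 (by nlinarith : (1 + e) * (t + 1) + C ≤ (1 + e) * (t + 2) + C)
      (by linarith : (1 + e) * (t + 2) + C - ((1 + e) * (t + 1) + C) ≤ C + 3)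
    have h4 : (C + 3) / T ≤ 1 / 1000 := by rw [div_le_iff₀ hT]; linarith
    have h5 := exp_le' (x := (C + 3) / T) (by positivity) (by linarith)
    have hF2 := Ff_pos p.ha hT (by
      have : 0 ≤ (1 + e) * (t + 2) + C := by positivity
      linarith : -T < (1 + e) * (t + 2) + C)
    have h6 : Ff a T ((1 + e) * (t + 1) + C) / N ≤ 2 * Pf e C a T N R1 t := by
      calc Ff a T ((1 + e) * (t + 1) + C) / N
          ≤ (2 * Ff a T ((1 + e) * (t + 2) + C)) / N := by
            refine div_le_div_of_nonneg_right (h3.trans ?_) hN.le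
            exact mul_le_mul_of_nonneg_right (by linarith) hF2.le
        _ = 2 * (Ff a T ((1 + e) * (t + 2) + C) / N) := by ring
        _ ≤ _ := by linarith
    have h7 : gf a T ((1 + e) * (t + 1) + C) / N ≤ 2 * Pf e C a T N R1 t / T :=
      h2.trans (div_le_div_of_nonneg_right h6 hT.le)
    have hg : 0 ≤ gf a T ((1 + e) * (t + 1) + C) / N :=
      div_nonneg (gf_nonneg p.ha hT (by linarith)) hN.le
    have h8 : (gf a T ((1 + e) * (t + 1) + C) / N) ^ 2 ≤ (2 * Pf e C a T N R1 t / T) ^ 2 := by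
      gcongr
    have h9 : (2 * Pf e C a T N R1 t / T) ^ 2 = 4 / T ^ 2 * Pf e C a T N R1 t ^ 2 := by ring
    have h10 : 4 / T ^ 2 ≤ q := by
      rw [div_le_iff₀ (by positivity)]
      nlinarith
    calc _ ≤ _ := h1
      _ ≤ _ := h8
      _ = _ := h9
      _ ≤ _ := mul_le_mul_of_nonneg_right h10 (sq_nonneg _)

lemma Ph_le {τ : ℝ} (hτ : 0 ≤ τ) (hR : τ ≤ R1) :
    ASM.Ph (hf a T N R1) R1 τ ≤ 132 / 1000 * (Ff a T τ / N) ^ 2 := by
  have hN := p.hN
  have h1 := phi_le p.ha p.ha1 p.hT hτ hR (h := fun r => N ^ 2 * hf a T N R1 r)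
    (continuous_const.mul p.c1.continuous) (fun r hr => by
      have := p.hle (hτ.trans hr)
      have e1 : gf a T r ^ 2 = N ^ 2 * (gf a T r / N) ^ 2 := by field_simp
      rw [e1]
      exact mul_le_mul_of_nonneg_left this (sq_nonneg _))
  have e2 : ∫ r in τ..R1, (r - τ) * (N ^ 2 * hf a T N R1 r) =
      N ^ 2 * ASM.Ph (hf a T N R1) R1 τ := by
    unfold ASM.Ph
    rw [← intervalIntegral.integral_const_mul]
    refine intervalIntegral.integral_congr fun r _ => ?_
    ring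
  rw [e2] at h1
  have e3 : 132 / 1000 * (Ff a T τ / N) ^ 2 = (132 / 1000 * Ff a T τ ^ 2) / N ^ 2 := by ring
  rw [e3, le_div_iff₀ (by positivity)]
  linarith

lemma c13 : ASM.Ph (hf a T N R1) R1 0 ≤ q := by
  have hN := p.hN
  have hq0 := p.hq0
  have h1 := phi0_le p.ha p.ha1 p.hT p.hR0.le (h := fun r => N ^ 2 * hf a T N R1 r)
    (continuous_const.mul p.c1.continuous) (fun r hr => by
      have := p.hle hr
      have e1 : gf a T r ^ 2 = N ^ 2 * (gf a T r / N) ^ 2 := by field_simp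
      rw [e1]
      exact mul_le_mul_of_nonneg_left this (sq_nonneg _))
  have e2 : ∫ r in (0:ℝ)..R1, (r - 0) * (N ^ 2 * hf a T N R1 r) =
      N ^ 2 * ASM.Ph (hf a T N R1) R1 0 := by
    unfold ASM.Ph
    rw [← intervalIntegral.integral_const_mul]
    refine intervalIntegral.integral_congr fun r _ => ?_
    ring
  rw [e2] at h1
  have hF0 := Ff_pos p.ha p.hT (by have := p.hT; linarith : -T < 0)
  have h2 : a * Ff a T 0 ^ 2 ≤ q * N ^ 2 := by
    have := p.F0N
    have e1 : Ff a T 0 ^ 2 ≤ (101 / 100 * N) ^ 2 := by gcongr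
    have ha := p.ha
    have ha2 : a ≤ q / 200 := p.ha'.le
    calc a * Ff a T 0 ^ 2 ≤ q / 200 * (101 / 100 * N) ^ 2 := by gcongr
      _ ≤ q * N ^ 2 := by nlinarith [mul_pos hq0 (pow_pos hN 2)]
  have h3 : N ^ 2 * ASM.Ph (hf a T N R1) R1 0 ≤ N ^ 2 * q := by linarith
  exact le_of_mul_le_mul_left h3 (by positivity)

lemma c14 {t t' : ℝ} (ht : 0 ≤ t) (htt : t - 1 ≤ t') :
    ASM.Ph (hf a T N R1) R1 (max 0 ((1 - e) * t' - C)) ≤ 135 / 1000 * Pf e C a T N R1 t ^ 2 := by
  have he := p.he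
  have he1 := p.he1
  have hT := p.hT
  have hT1 := p.hT1
  have hC := p.hC
  have hR0 := p.hR0
  have hR1 := p.hR1
  have hN := p.hN
  set τ := max 0 ((1 - e) * t' - C) with hτd
  have hτ0 : 0 ≤ τ := le_max_left _ _
  have hτ1 : (1 - e) * t - 1 - C ≤ τ := by
    have h1 : (1 - e) * t' - C ≤ τ := le_max_right _ _
    nlinarith
  rcases le_total R1 τ with h | h
  · have : ASM.Ph (hf a T N R1) R1 τ = 0 := by
      unfold ASM.Ph
      have : ∫ r in τ..R1, (r - τ) * hf a T N R1 r = ∫ r in τ..R1, (0:ℝ) := by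
        refine intervalIntegral.integral_congr fun r hr => ?_
        rw [uIcc_of_ge h] at hr
        simp only [p.c4 hr.1, mul_zero]
      rw [this]; simp
    rw [this]; positivity
  · have ht2 : t ≤ 2 * R1 := by nlinarith
    have hP := p.P_lower ht ht2
    have hPh := p.Ph_le hτ0 h
    have h1e : 0 ≤ (1 - e) * t := mul_nonneg (by linarith) ht
    have h2e : 0 ≤ (1 + e) * t := mul_nonneg (by linarith) ht
    have hFa := Ff_pos p.ha hT (by linarith : -T < (1 - e) * t)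
    have hFb := Ff_pos p.ha hT (by linarith : -T < (1 + e) * t)
    have h3e : 0 ≤ (1 + e) * (t + 2) + C := by positivity
    have hFc := Ff_pos p.ha hT (by linarith : -T < (1 + e) * (t + 2) + C)
    have hx : (C + 3) / T ≤ 1 / 1000 := by rw [div_le_iff₀ hT]; linarith
    have hex := exp_le' (x := (C + 3) / T) (by positivity) (by linarith)
    have hex' : Real.exp ((C + 3) / T) ≤ 10011 / 10000 := by linarith
    have s1 : Ff a T τ ≤ 10011 / 10000 * Ff a T ((1 - e) * t) := by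
      rcases le_total τ ((1 - e) * t) with h5 | h5
      · have := Ff_shift p.ha hT hτ0 h5 (by linarith : (1 - e) * t - τ ≤ C + 3)
        exact this.trans (mul_le_mul_of_nonneg_right hex' hFa.le)
      · have := Ff_antitone p.ha hT (mem_Ici.mpr h1e) (mem_Ici.mpr hτ0) h5
        linarith
    have s2 := Ff_dil p.ha hT he he1 ht
    have s3 : Ff a T ((1 + e) * t) ≤ 10011 / 10000 * Ff a T ((1 + e) * (t + 2) + C) := by
      have := Ff_shift p.ha hT h2e (by nlinarith : (1 + e) * t ≤ (1 + e) * (t + 2) + C)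
        (by linarith : (1 + e) * (t + 2) + C - (1 + e) * t ≤ C + 3)
      exact this.trans (mul_le_mul_of_nonneg_right hex' hFc.le)
    have s4 : Ff a T τ ≤ 1006 / 1000 * Ff a T ((1 + e) * (t + 2) + C) := by linarith
    have s5 : Ff a T τ / N ≤ 1006 / 1000 * Pf e C a T N R1 t := by
      calc Ff a T τ / N ≤ (1006 / 1000 * Ff a T ((1 + e) * (t + 2) + C)) / N :=
            div_le_div_of_nonneg_right s4 hN.le
        _ = 1006 / 1000 * (Ff a T ((1 + e) * (t + 2) + C) / N) := by ring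
        _ ≤ _ := by linarith
    have hτF := Ff_pos p.ha hT (by linarith : -T < τ)
    have s6 : (Ff a T τ / N) ^ 2 ≤ (1006 / 1000 * Pf e C a T N R1 t) ^ 2 := by
      gcongr
    nlinarith [sq_nonneg (Pf e C a T N R1 t)]

end Par

end par

end Prof

/-- **StPROF** -/
theorem stPROF : ASM.StPROF := by
  intro e C ε he he1 hC hε
  have hq0 : 0 < min ε 1 := lt_min hε one_pos
  have hqε : min ε 1 ≤ ε := min_le_left _ _
  have hq1 : min ε 1 ≤ 1 := min_le_right _ _
  obtain ⟨a, T, N, R1, p⟩ := exists_Par he he1 hC hq0 hq1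
  have hR0 := p.hR0
  have h3 : min ε 1 / R1 ^ 3 ≤ ε / R1 ^ 3 := div_le_div_of_nonneg_right hqε (by positivity)
  refine ⟨R1, hf a T N R1, Pf e C a T N R1, by have := p.hR1; linarith, p.c1, p.c2, p.c3,
    fun t ht => p.c4 ht, fun t ht => ?_, p.c6, p.c7, fun t ht => p.c8 ht, fun t ht => p.c9 ht,
    fun t => (p.c10 t).trans hqε, fun t ht => ?_, fun t ht => ?_, p.c13.trans hqε,
    fun t t' ht htt => p.c14 ht htt⟩
  · have := p.c5 ht
    have h2 := p.c2 t
    have : min ε 1 * hf a T N R1 t ≤ ε * hf a T N R1 t := mul_le_mul_of_nonneg_right hqε h2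
    linarith
  · have := p.c11 ht
    have h2 := p.c2 ((1 + e) * (t + 1) + C)
    have : (1 + 10 * e + min ε 1) * hf a T N R1 ((1 + e) * (t + 1) + C) ≤
      (1 + 10 * e + ε) * hf a T N R1 ((1 + e) * (t + 1) + C) :=
      mul_le_mul_of_nonneg_right (by linarith) h2
    linarith
  · exact (p.c12 ht).trans (mul_le_mul_of_nonneg_right hqε (sq_nonneg _))

end Vale.Agent.P134.H970
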