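import Vale.Agent.P134.H970.Sd

/-! P134 / PX : the parallelograms of the second differences. -/

set_option linter.all false

open MeasureTheory Set
open scoped ENNReal RealInnerProductSpace Real

namespace Vale.Agent.P134.H970

open PX
open PS hiding Lat

def isq (v : PS.Lat) : ℤ := v 0 ^ 2 + v 1 ^ 2 + v 2 ^ 2

lemma corner_all : ∀ (τ : Fin 7) (k : Fin 6), isq (sb τ ((k:ℕ) + 1)) ≤ 3 ∧ isq (bb τ k) ≤ 3 ∧
    isq (bb τ ((k:ℕ) + 2)) ≤ 3 ∧ isq (bb τ k + bb τ ((k:ℕ) + 2) - sb τ ((k:ℕ) + 1)) ≤ 3 := by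
  decide +kernel

lemma isq_evec : ∀ τ : Fin 7, isq (evec τ) ≤ 3 := by decide

lemma mm_le (τ : Fin 7) : mm τ ≤ 6 := by revert τ; decide

lemma sum_mm : ∑ τ : Fin 7, mm τ = 36 := by decide

lemma norm_pt_sq (q : PS.Lat) : ‖pt q‖ ^ 2 = (isq q : ℝ) := by
  rw [EuclideanSpace.norm_sq_eq]
  simp [pt, isq, Fin.sum_univ_three]

lemma norm_pt_le {q : PS.Lat} (h : isq q ≤ 3) : ‖pt q‖ ≤ 2 := by
  have h1 := norm_pt_sq q
  have h2 : (isq q : ℝ) ≤ 3 := by exact_mod_cast h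
  nlinarith [norm_nonneg (pt q)]

lemma pt_sub (a b : PS.Lat) : pt (a - b) = pt a - pt b := by
  ext j; simp [pt]

lemma pt_add (a b : PS.Lat) : pt (a + b) = pt a + pt b := by
  ext j; simp [pt]

/-- the data of the second differences -/
noncomputable def Sg (τ : Fin 7) (k : ℕ) : E3 := pt (sb τ (k + 1))
noncomputable def Av (τ : Fin 7) (k : ℕ) : E3 := pt (bb τ k - sb τ (k + 1))
noncomputable def Bv (τ : Fin 7) (k : ℕ) : E3 := pt (bb τ (k + 2) - sb τ (k + 1))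

lemma lam_eq (φ : E3 → ℝ) (p : E3) (τ : Fin 7) (k : ℕ) :
    lam φ p τ (k + 1) = sd φ (p + Sg τ k) (Av τ k) (Bv τ k) := by
  unfold lam Sg Av Bv
  simp only [Nat.add_sub_cancel]

lemma corner {τ : Fin 7} {k : ℕ} (hk : k < mm τ) : isq (sb τ (k + 1)) ≤ 3 ∧ isq (bb τ k) ≤ 3 ∧
    isq (bb τ (k + 2)) ≤ 3 ∧ isq (bb τ k + bb τ (k + 2) - sb τ (k + 1)) ≤ 3 := by
  have h6 := mm_le τ
  exact corner_all τ ⟨k, by omega⟩

lemma norm_shift_le {τ : Fin 7} {k : ℕ} (hk : k < mm τ) {s t : ℝ} (hs : s ∈ Icc (0:ℝ) 1)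
    (ht : t ∈ Icc (0:ℝ) 1) : ‖Sg τ k + s • Av τ k + t • Bv τ k‖ ≤ 2 := by
  obtain ⟨h1, h2, h3, h4⟩ := corner hk
  have n1 := norm_pt_le h1
  have n2 := norm_pt_le h2
  have n3 := norm_pt_le h3
  have n4 := norm_pt_le h4
  have e : Sg τ k + s • Av τ k + t • Bv τ k = ((1 - s) * (1 - t)) • pt (sb τ (k + 1))
      + (s * (1 - t)) • pt (bb τ k) + ((1 - s) * t) • pt (bb τ (k + 2))
      + (s * t) • pt (bb τ k + bb τ (k + 2) - sb τ (k + 1)) := by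
    unfold Sg Av Bv
    rw [pt_sub, pt_sub, pt_sub, pt_add]
    module
  rw [e]
  have hs0 := hs.1
  have hs1 : 0 ≤ 1 - s := by linarith [hs.2]
  have ht0 := ht.1
  have ht1 : 0 ≤ 1 - t := by linarith [ht.2]
  have b1 : ‖((1 - s) * (1 - t)) • pt (sb τ (k + 1))‖ ≤ (1 - s) * (1 - t) * 2 := by
    rw [norm_smul, Real.norm_of_nonneg (by positivity)]
    exact mul_le_mul_of_nonneg_left n1 (by positivity)
  have b2 : ‖(s * (1 - t)) • pt (bb τ k)‖ ≤ s * (1 - t) * 2 := by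
    rw [norm_smul, Real.norm_of_nonneg (by positivity)]
    exact mul_le_mul_of_nonneg_left n2 (by positivity)
  have b3 : ‖((1 - s) * t) • pt (bb τ (k + 2))‖ ≤ (1 - s) * t * 2 := by
    rw [norm_smul, Real.norm_of_nonneg (by positivity)]
    exact mul_le_mul_of_nonneg_left n3 (by positivity)
  have b4 : ‖(s * t) • pt (bb τ k + bb τ (k + 2) - sb τ (k + 1))‖ ≤ s * t * 2 := by
    rw [norm_smul, Real.norm_of_nonneg (by positivity)]
    exact mul_le_mul_of_nonneg_left n4 (by positivity)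
  refine (norm_add_le _ _).trans ?_
  refine (add_le_add ((norm_add_le _ _).trans (add_le_add ((norm_add_le _ _).trans
    (add_le_add b1 b2)) b3)) b4).trans (le_of_eq ?_)
  ring

lemma norm_Av {τ : Fin 7} {k : ℕ} (hk : k < mm τ) : ‖Av τ k‖ ≤ 4 := by
  obtain ⟨h1, h2, h3, h4⟩ := corner hk
  unfold Av
  rw [pt_sub]
  have := norm_sub_le (pt (bb τ k)) (pt (sb τ (k + 1)))
  linarith [norm_pt_le h1, norm_pt_le h2]

lemma norm_Bv {τ : Fin 7} {k : ℕ} (hk : k < mm τ) : ‖Bv τ k‖ ≤ 4 := by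
  obtain ⟨h1, h2, h3, h4⟩ := corner hk
  unfold Bv
  rw [pt_sub]
  have := norm_sub_le (pt (bb τ (k + 2))) (pt (sb τ (k + 1)))
  linarith [norm_pt_le h1, norm_pt_le h3]

lemma D2_sq_le (φ : E3 → ℝ) (x a b : E3) (ha : ‖a‖ ≤ 4) (hb : ‖b‖ ≤ 4) :
    D2 φ x a b ^ 2 ≤ 256 * ‖fderiv ℝ (fderiv ℝ φ) x‖ ^ 2 := by
  have h1 : |D2 φ x a b| ≤ ‖fderiv ℝ (fderiv ℝ φ) x‖ * 4 * 4 := by
    unfold D2
    refine ((fderiv ℝ (fderiv ℝ φ) x a).le_opNorm b).trans ?_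
    refine mul_le_mul ?_ hb (norm_nonneg _) (by positivity)
    refine ((fderiv ℝ (fderiv ℝ φ) x).le_opNorm a).trans ?_
    exact mul_le_mul_of_nonneg_left ha (norm_nonneg _)
  have h2 := abs_nonneg (D2 φ x a b)
  rw [← sq_abs]
  nlinarith [norm_nonneg (fderiv ℝ (fderiv ℝ φ) x)]

end Vale.Agent.P134.H970
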