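import Vale.Agent.P134.H970.Comb

/-! P134 / PX : `StPX4 → StFIALA`. -/

set_option linter.all false

open MeasureTheory Set
open scoped ENNReal RealInnerProductSpace Real

namespace Vale.Agent.P134.H970

open PX
open PS hiding Lat

variable {φ : E3 → ℝ}

/-! ### `Ph` -/

lemma Ph_anti {f : ℝ → ℝ} (hf : Antitone f) : Antitone (Ph f) := by
  intro s t hst
  unfold Ph
  refine lintegral_mono fun r => ?_
  gcongr
  exact hf (by linarith)

lemma measurable_Ph {f : ℝ → ℝ} (hf : Antitone f) : Measurable (Ph f) :=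
  (Ph_anti hf).measurable

lemma f4_le_Ph {f : ℝ → ℝ} (hf : Antitone f) : ENNReal.ofReal (f 4) ≤ Ph f 0 := by
  unfold Ph
  calc ENNReal.ofReal (f 4) = ∫⁻ r in Ioc (3:ℝ) 4, ENNReal.ofReal (f 4) := by
        simp; norm_num
    _ ≤ ∫⁻ r in Ioc (3:ℝ) 4, ENNReal.ofReal (f (0 + r)) * ENNReal.ofReal r := by
        refine setLIntegral_mono' measurableSet_Ioc fun r hr => ?_
        have h1 : ENNReal.ofReal (f 4) ≤ ENNReal.ofReal (f (0 + r)) :=
          ENNReal.ofReal_le_ofReal (hf (by linarith [hr.2]))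
        have h2 : (1 : ℝ≥0∞) ≤ ENNReal.ofReal r := by
          rw [← ENNReal.ofReal_one]
          exact ENNReal.ofReal_le_ofReal (by linarith [hr.1])
        calc ENNReal.ofReal (f 4) = ENNReal.ofReal (f 4) * 1 := (mul_one _).symm
          _ ≤ _ := mul_le_mul' h1 h2
    _ ≤ _ := lintegral_mono_set (fun r hr => by
        have := hr.1; exact mem_Ioi.mpr (by linarith))

/-! ### covering -/

/-- volume of a ball -/
noncomputable def Vb (r : ℝ) : ℝ := (volume (Metric.closedBall (0 : E3) r)).toReal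

lemma vol_ball (b : E3) (r : ℝ) : volume (Metric.closedBall b r) = ENNReal.ofReal (Vb r) := by
  unfold Vb
  rw [ENNReal.ofReal_toReal measure_closedBall_lt_top.ne]
  exact Measure.addHaar_closedBall_center _ _ _

lemma cover_le {B : Set E3} (hB : B.Countable) {G : E3 → ℝ} {l : ℝ} (hG : Gwt G l) (hl : 0 ≤ l)
    {r : ℝ} (K : ℝ≥0∞) :
    ∫⁻ x in {x | ∃ b ∈ B, dist x b ≤ r}, K * ENNReal.ofReal (G x ^ 2)
      ≤ K * ENNReal.ofReal (Real.exp (2 * l * r) * Vb r) * ∑' b : B, ENNReal.ofReal (G b ^ 2) := by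
  have : Countable B := hB.to_subtype
  have e : {x : E3 | ∃ b ∈ B, dist x b ≤ r} = ⋃ b : B, Metric.closedBall (b : E3) r := by
    ext x; simp
  rw [e]
  refine (lintegral_iUnion_le _ _).trans ?_
  rw [← ENNReal.tsum_mul_left]
  refine ENNReal.tsum_le_tsum fun b => ?_
  calc ∫⁻ x in Metric.closedBall (b : E3) r, K * ENNReal.ofReal (G x ^ 2)
      ≤ ∫⁻ x in Metric.closedBall (b : E3) r,
          K * ENNReal.ofReal (Real.exp (2 * l * r) * G b ^ 2) := by
        refine setLIntegral_mono' Metric.isClosed_closedBall.measurableSet fun x hx => ?_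
        gcongr
        have h1 := hG.lip x b
        have h2 : dist x (b : E3) ≤ r := hx
        have h3 : G x ≤ Real.exp (l * r) * G b := h1.trans
          (mul_le_mul_of_nonneg_right (Real.exp_le_exp.mpr (mul_le_mul_of_nonneg_left h2 hl))
            (hG.pos b).le)
        calc G x ^ 2 ≤ (Real.exp (l * r) * G b) ^ 2 := by
              gcongr
              exact (hG.pos x).le
          _ = Real.exp (2 * l * r) * G b ^ 2 := by
              rw [mul_pow, ← Real.exp_nat_mul]; congr 2; push_cast; ring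
    _ = K * ENNReal.ofReal (Real.exp (2 * l * r) * Vb r) * ENNReal.ofReal (G b ^ 2) := by
        rw [setLIntegral_const, vol_ball, ENNReal.ofReal_mul (Real.exp_pos _).le,
          ENNReal.ofReal_mul (Real.exp_pos _).le]
        ring

/-! ### facts on `Good` -/

section good
variable {B : Set E3} {s δ L0 : ℝ}

lemma Good.mono (h : PX.Good φ B s δ L0) {δ' : ℝ} (hd : δ ≤ δ') : PX.Good φ B s δ' L0 where
  c2 := h.c2
  le_one := h.le_one
  flat := fun x hx hb => by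
    obtain ⟨n, hn, hf⟩ := h.flat x hx hb
    exact ⟨n, hn, fun y hy => (hf y hy).trans hd⟩

lemma Gwt.mono {G : E3 → ℝ} {l l' : ℝ} (h : Gwt G l) (hl : l ≤ l') : Gwt G l' where
  pos := h.pos
  cont := h.cont
  lip := fun x y => (h.lip x y).trans (mul_le_mul_of_nonneg_right
    (Real.exp_le_exp.mpr (mul_le_mul_of_nonneg_right hl dist_nonneg)) (h.pos y).le)

lemma norm_gradient_eq (φ : E3 → ℝ) (x : E3) : ‖gradient φ x‖ = ‖fderiv ℝ φ x‖ := by
  unfold gradient
  simp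

lemma norm_fderiv_sub (φ : E3 → ℝ) (x y : E3) :
    ‖fderiv ℝ φ x - fderiv ℝ φ y‖ = ‖gradient φ x - gradient φ y‖ := by
  unfold gradient
  rw [← map_sub, LinearIsometryEquiv.norm_map]

lemma lip (h : PX.Good φ B s δ L0) (x y : E3) : |φ x - φ y| ≤ dist x y := by
  have hd : Differentiable ℝ φ := h.c2.differentiable (by norm_num)
  have h1 := Convex.norm_image_sub_le_of_norm_fderiv_le (𝕜 := ℝ) (f := φ) (C := 1) (s := univ)
    (x := y) (y := x) (fun z _ => hd z) (fun z _ => by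
      rw [← norm_gradient_eq]; exact h.le_one z) convex_univ (mem_univ _) (mem_univ _)
  rwa [one_mul, Real.norm_eq_abs, ← dist_eq_norm] at h1

/-- a point outside of the zone is far from `B` -/
lemma far_of_rho {x : E3} (hL : 0 ≤ L0) (h1 : rho3 φ (s + 8) (Zon B L0) x < ⊤)
    (h0 : rho3 φ (s + 8) (Zon B L0) x ≠ 0) : ∀ b ∈ B, L0 ≤ dist x b := by
  intro b hb
  by_contra hlt
  push Not at hlt
  exact h0 (rho3_zero ⟨b, hb, by linarith⟩ (rho3_slab h1))

end good

/-! ### the main pointwise estimate -/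

section main
variable {B : Set E3} {s δ L0 : ℝ}

/-- the chain distance used everywhere -/
noncomputable abbrev rh (φ : E3 → ℝ) (B : Set E3) (s L0 : ℝ) (x : E3) : ℝ≥0∞ :=
  rho3 φ (s + 8) (Zon B L0) x

open Classical in
/-- integrand at the displaced point -/
noncomputable def Tt (φ : E3 → ℝ) (B : Set E3) (s L0 E c : ℝ) (W : ℝ → ℝ → ℝ) (f : ℝ → ℝ)
    (G : E3 → ℝ) (τ : Fin 7) (k : ℕ) (x : E3) : ℝ≥0∞ :=
  {x | 0 < rh φ B s L0 x ∧ rh φ B s L0 x < ⊤}.indicator (fun x =>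
    ENNReal.ofReal (W 8 (φ x)) * Ph f (max ((rh φ B s L0 x).toReal - C1 s - 4) 0) *
      ENNReal.ofReal (E * G x ^ 2) *
      ENNReal.ofReal ((1 / 4 * (fderiv ℝ φ x (pt (evec τ))) ^ 2 + c) *
        D2 φ x (Av τ k) (Bv τ k) ^ 2)) x

lemma measurableSet_reg (hφ : Continuous φ) :
    MeasurableSet {x | 0 < rh φ B s L0 x ∧ rh φ B s L0 x < ⊤} := by
  have hm := measurable_rho3 (S := s + 8) (Z := Zon B L0) hφ
  exact (measurableSet_lt measurable_const hm).inter (measurableSet_lt hm measurable_const)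

lemma measurable_Tt (h2 : ContDiff ℝ 2 φ) {E c : ℝ} {W : ℝ → ℝ → ℝ} {f : ℝ → ℝ} {G : E3 → ℝ}
    (hW : Wt s W) (hf : Antitone f) (hG : Continuous G) (τ : Fin 7) (k : ℕ) :
    Measurable (Tt φ B s L0 E c W f G τ k) := by
  have hφ : Continuous φ := h2.continuous
  have hm := measurable_rho3 (S := s + 8) (Z := Zon B L0) hφ
  refine Measurable.indicator ?_ (measurableSet_reg hφ)
  refine ((Measurable.mul ?_ ?_).mul ?_).mul ?_
  · exact ENNReal.measurable_ofReal.comp ((hW.meas 8).comp hφ.measurable)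
  · exact (measurable_Ph hf).comp (((hm.ennreal_toReal.sub_const _).sub_const _).max
      measurable_const)
  · exact ENNReal.measurable_ofReal.comp (by fun_prop)
  · refine ENNReal.measurable_ofReal.comp (Continuous.measurable ?_)
    have h1 : Continuous fun x => fderiv ℝ φ x (pt (evec τ)) :=
      (h2.continuous_fderiv (by norm_num)).clm_apply continuous_const
    have h3 := continuous_D2 h2 (Av τ k) (Bv τ k)
    fun_prop

/-- the cost at `p`, second difference term, bounded by the integrand at the displaced point -/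
lemma point_le (hg : PX.Good φ B s δ L0) (hs : 1 ≤ s) (hL : 200 * (s + 10) ≤ L0) (hδ : 0 ≤ δ)
    {W : ℝ → ℝ → ℝ} {f : ℝ → ℝ} {G : E3 → ℝ} (hW : Wt s W) (hf : Antitone f) {l : ℝ}
    (hG : Gwt G l) (hl : 0 ≤ l) {ε c E : ℝ} (hε : 0 ≤ ε) (hc : ε + 3 * δ ≤ c)
    (hE : Real.exp (8 * ε + 4 * l) ≤ E) {τ : Fin 7} {k : ℕ} (hk : k < mm τ) {p x : E3}
    (hpx : dist p x ≤ 2) (h1 : ENNReal.ofReal (C1 s + 2) < rh φ B s L0 p)
    (h2 : rh φ B s L0 p < ⊤) :
    ENNReal.ofReal (W 5 (φ p)) * Ph f (max ((rh φ B s L0 p).toReal - C1 s - 2) 0) *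
      ENNReal.ofReal (Real.exp (8 * ε) * G p ^ 2) *
      ENNReal.ofReal (1 / 4 * (fderiv ℝ φ p (pt (evec τ))) ^ 2 + ε) *
      ENNReal.ofReal (D2 φ x (Av τ k) (Bv τ k) ^ 2) ≤ Tt φ B s L0 E c W f G τ k x := by
  by_cases hW0 : W 5 (φ p) = 0
  · simp [hW0]
  have hφp : |φ p| < s + 5 := hW.supp 5 _ hW0
  have hlip := lip hg p x
  have hφx : |φ x| ≤ s + 8 := by
    have : |φ x| ≤ |φ p| + |φ p - φ x| := by
      have := abs_sub_abs_le_abs_sub (φ x) (φ p)
      rw [abs_sub_comm (φ p)]; linarith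
    linarith
  have hφp8 : |φ p| ≤ s + 8 := by linarith
  have hC1 : 0 ≤ C1 s := by unfold C1; linarith
  have st1 : rh φ B s L0 x ≤ rh φ B s L0 p + ENNReal.ofReal (dist p x) := rho3_step hφx hpx
  have st2 : rh φ B s L0 p ≤ rh φ B s L0 x + ENNReal.ofReal (dist p x) := by
    have := rho3_step (φ := φ) (S := s + 8) (Z := Zon B L0) (x := x) (y := p) hφp8
      (by rwa [dist_comm])
    rwa [dist_comm] at this
  have hxt : rh φ B s L0 x < ⊤ := st1.trans_lt (ENNReal.add_lt_top.mpr ⟨h2, ENNReal.ofReal_lt_top⟩)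
  have r1 : (rh φ B s L0 x).toReal ≤ (rh φ B s L0 p).toReal + dist p x := by
    have := ENNReal.toReal_mono (ENNReal.add_lt_top.mpr ⟨h2, ENNReal.ofReal_lt_top⟩).ne st1
    rwa [ENNReal.toReal_add h2.ne ENNReal.ofReal_ne_top, ENNReal.toReal_ofReal dist_nonneg] at this
  have r2 : (rh φ B s L0 p).toReal ≤ (rh φ B s L0 x).toReal + dist p x := by
    have := ENNReal.toReal_mono (ENNReal.add_lt_top.mpr ⟨hxt, ENNReal.ofReal_lt_top⟩).ne st2
    rwa [ENNReal.toReal_add hxt.ne ENNReal.ofReal_ne_top, ENNReal.toReal_ofReal dist_nonneg] at this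
  have r3 : C1 s + 2 < (rh φ B s L0 p).toReal := by
    rwa [ENNReal.ofReal_lt_iff_lt_toReal (by linarith) h2.ne] at h1
  have hx0 : 0 < rh φ B s L0 x := by
    have h : 0 < (rh φ B s L0 x).toReal := by linarith
    exact (ENNReal.toReal_pos_iff.mp h).1
  have hmem : x ∈ {x | 0 < rh φ B s L0 x ∧ rh φ B s L0 x < ⊤} := ⟨hx0, hxt⟩
  unfold Tt
  rw [indicator_of_mem hmem]
  -- the factors
  have f1 : ENNReal.ofReal (W 5 (φ p)) ≤ ENNReal.ofReal (W 8 (φ x)) :=
    ENNReal.ofReal_le_ofReal (hW.mono 5 8 _ _ (by linarith))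
  have f2 : Ph f (max ((rh φ B s L0 p).toReal - C1 s - 2) 0) ≤
      Ph f (max ((rh φ B s L0 x).toReal - C1 s - 4) 0) :=
    Ph_anti hf (max_le_max (by linarith) le_rfl)
  have f3 : ENNReal.ofReal (Real.exp (8 * ε) * G p ^ 2) ≤ ENNReal.ofReal (E * G x ^ 2) := by
    refine ENNReal.ofReal_le_ofReal ?_
    have g1 : G p ≤ Real.exp (l * 2) * G x := (hG.lip p x).trans
      (mul_le_mul_of_nonneg_right (Real.exp_le_exp.mpr (mul_le_mul_of_nonneg_left hpx hl))
        (hG.pos x).le)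
    calc Real.exp (8 * ε) * G p ^ 2 ≤ Real.exp (8 * ε) * (Real.exp (l * 2) * G x) ^ 2 := by
          gcongr; exact (hG.pos p).le
      _ = Real.exp (8 * ε + 4 * l) * G x ^ 2 := by
          rw [mul_pow, ← Real.exp_nat_mul, ← mul_assoc, ← Real.exp_add]
          congr 2; push_cast; ring
      _ ≤ E * G x ^ 2 := by gcongr
  -- gradients
  have hfar := far_of_rho (by linarith) h2 (by
    intro h0
    have h0' : (rh φ B s L0 p).toReal = 0 := by
      show (rho3 φ (s + 8) (Zon B L0) p).toReal = 0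
      rw [h0]; rfl
    linarith)
  obtain ⟨n, hn, hflat⟩ := hg.flat p (by linarith) hfar
  have hd1 : ‖fderiv ℝ φ p - fderiv ℝ φ x‖ ≤ 2 * δ := by
    rw [norm_fderiv_sub]
    have a1 := hflat p (by rw [dist_self]; linarith)
    have a2 := hflat x (by rw [dist_comm]; linarith)
    have a3 : gradient φ p - gradient φ x = (gradient φ p - n) - (gradient φ x - n) := by abel
    rw [a3]
    refine (norm_sub_le _ _).trans ?_
    linarith
  have hev : ‖pt (evec τ)‖ ≤ 2 := norm_pt_le (isq_evec τ)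
  have hev3 : ‖pt (evec τ)‖ ^ 2 ≤ 3 := by
    rw [norm_pt_sq]; exact_mod_cast isq_evec τ
  have f4 : 1 / 4 * (fderiv ℝ φ p (pt (evec τ))) ^ 2 + ε ≤
      1 / 4 * (fderiv ℝ φ x (pt (evec τ))) ^ 2 + c := by
    set α := fderiv ℝ φ p (pt (evec τ)) with hα
    set β := fderiv ℝ φ x (pt (evec τ)) with hβ
    set e := ‖pt (evec τ)‖ with he
    have he0 : 0 ≤ e := norm_nonneg _
    have b1 : |α - β| ≤ 2 * δ * e := by
      have : α - β = (fderiv ℝ φ p - fderiv ℝ φ x) (pt (evec τ)) := by simp [hα, hβ]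
      rw [this]
      exact (ContinuousLinearMap.le_opNorm _ _).trans (mul_le_mul_of_nonneg_right hd1 he0)
    have b2 : |α| ≤ e := by
      rw [← Real.norm_eq_abs]
      refine (ContinuousLinearMap.le_opNorm _ _).trans ?_
      rw [← norm_gradient_eq]
      exact mul_le_of_le_one_left he0 (hg.le_one p)
    have b3 : |β| ≤ e := by
      rw [← Real.norm_eq_abs]
      refine (ContinuousLinearMap.le_opNorm _ _).trans ?_
      rw [← norm_gradient_eq]
      exact mul_le_of_le_one_left he0 (hg.le_one x)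
    have b4 : α ^ 2 - β ^ 2 ≤ 2 * δ * e * (2 * e) := by
      have : α ^ 2 - β ^ 2 = (α - β) * (α + β) := by ring
      rw [this]
      refine (le_abs_self _).trans ?_
      rw [abs_mul]
      refine mul_le_mul b1 ?_ (abs_nonneg _) (by positivity)
      exact (abs_add_le _ _).trans (by linarith)
    nlinarith
  have f5 : ENNReal.ofReal (1 / 4 * (fderiv ℝ φ p (pt (evec τ))) ^ 2 + ε) *
      ENNReal.ofReal (D2 φ x (Av τ k) (Bv τ k) ^ 2) ≤
      ENNReal.ofReal ((1 / 4 * (fderiv ℝ φ x (pt (evec τ))) ^ 2 + c) *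
        D2 φ x (Av τ k) (Bv τ k) ^ 2) := by
    rw [← ENNReal.ofReal_mul (by positivity)]
    refine ENNReal.ofReal_le_ofReal ?_
    exact mul_le_mul_of_nonneg_right f4 (sq_nonneg _)
  calc _ = ENNReal.ofReal (W 5 (φ p)) * Ph f (max ((rh φ B s L0 p).toReal - C1 s - 2) 0) *
      ENNReal.ofReal (Real.exp (8 * ε) * G p ^ 2) *
      (ENNReal.ofReal (1 / 4 * (fderiv ℝ φ p (pt (evec τ))) ^ 2 + ε) *
      ENNReal.ofReal (D2 φ x (Av τ k) (Bv τ k) ^ 2)) := by ring
    _ ≤ _ := mul_le_mul' (mul_le_mul' (mul_le_mul' f1 f2) f3) f5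

lemma measurable_avg {T : E3 → ℝ≥0∞} (hT : Measurable T) (σ a b : E3) :
    Measurable fun p => ∫⁻ t in Icc (0:ℝ) 1, ∫⁻ s in Icc (0:ℝ) 1, T (p + σ + s • a + t • b) := by
  have hm : Measurable fun z : (E3 × ℝ) × ℝ => T (z.1.1 + σ + z.2 • a + z.1.2 • b) :=
    hT.comp (by fun_prop)
  have h1 : Measurable fun z : E3 × ℝ => ∫⁻ s in Icc (0:ℝ) 1, T (z.1 + σ + s • a + z.2 • b) :=
    hm.lintegral_prod_right'
  exact h1.lintegral_prod_right'

lemma const_mul_dbl {g : ℝ → ℝ → ℝ≥0∞} (hg : Measurable (Function.uncurry g)) (c : ℝ≥0∞) :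
    c * ∫⁻ t in Icc (0:ℝ) 1, ∫⁻ s in Icc (0:ℝ) 1, g t s
      = ∫⁻ t in Icc (0:ℝ) 1, ∫⁻ s in Icc (0:ℝ) 1, c * g t s := by
  have h1 : Measurable fun t => ∫⁻ s in Icc (0:ℝ) 1, g t s := hg.lintegral_prod_right'
  rw [← lintegral_const_mul _ h1]
  refine lintegral_congr fun t => ?_
  have h2 : Measurable (g t) := hg.comp (measurable_prodMk_left (x := t))
  rw [← lintegral_const_mul _ h2]

/-- source part -/
noncomputable def Sc (φ : E3 → ℝ) (B : Set E3) (s L0 : ℝ) (f : ℝ → ℝ) (G : E3 → ℝ) (x : E3) :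
    ℝ≥0∞ :=
  {x | rh φ B s L0 x ≤ ENNReal.ofReal (C1 s + 2)}.indicator (fun x =>
    (ENNReal.ofReal (s + 5) * Ph f 0 * 300 * ENNReal.ofReal (Real.exp 8)) *
      ENNReal.ofReal (G x ^ 2)) x

lemma measurableSet_src (hφ : Continuous φ) :
    MeasurableSet {x | rh φ B s L0 x ≤ ENNReal.ofReal (C1 s + 2)} :=
  measurableSet_le (measurable_rho3 (S := s + 8) (Z := Zon B L0) hφ) measurable_const

lemma measurable_Sc (hφ : Continuous φ) (f : ℝ → ℝ) {G : E3 → ℝ} (hG : Continuous G) :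
    Measurable (Sc φ B s L0 f G) := by
  refine Measurable.indicator ?_ (measurableSet_src hφ)
  exact Measurable.const_mul (ENNReal.measurable_ofReal.comp (by fun_prop)) _

lemma Rr_le (hg : PX.Good φ B s δ L0) (hs : 1 ≤ s) (hL : 200 * (s + 10) ≤ L0) (hδ : 0 ≤ δ)
    {W : ℝ → ℝ → ℝ} {f : ℝ → ℝ} {G : E3 → ℝ} (hW : Wt s W) (hf : Antitone f) {l : ℝ}
    (hG : Gwt G l) (hl : 0 ≤ l) {ε c E : ℝ} (hε : 0 ≤ ε) (hε1 : ε ≤ 1) (hc : ε + 3 * δ ≤ c)
    (hE : Real.exp (8 * ε + 4 * l) ≤ E) (p : E3) :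
    Rr φ B s L0 ε W f G p ≤ Sc φ B s L0 f G p + ∑ τ : Fin 7, ∑ k ∈ Finset.range (mm τ),
      ∫⁻ t in Icc (0:ℝ) 1, ∫⁻ s' in Icc (0:ℝ) 1,
        Tt φ B s L0 E c W f G τ k (p + Sg τ k + s' • Av τ k + t • Bv τ k) := by
  unfold Rr
  have hC1 : 0 ≤ C1 s := by unfold C1; linarith
  by_cases h2 : rho3 φ (s + 8) (Zon B L0) p < ⊤
  swap
  · rw [if_neg h2]; exact zero_le
  rw [if_pos h2]
  by_cases h1 : rho3 φ (s + 8) (Zon B L0) p ≤ ENNReal.ofReal (C1 s + 2)
  · rw [if_pos h1]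
    have hmem : p ∈ {x | rh φ B s L0 x ≤ ENNReal.ofReal (C1 s + 2)} := h1
    have hr : (rho3 φ (s + 8) (Zon B L0) p).toReal ≤ C1 s + 2 :=
      ENNReal.toReal_le_of_le_ofReal (by linarith) h1
    rw [max_eq_right (by linarith)]
    refine le_trans ?_ le_self_add
    unfold Sc
    rw [indicator_of_mem hmem, ENNReal.ofReal_mul (Real.exp_pos _).le]
    calc ENNReal.ofReal (W 5 (φ p)) * Ph f 0 *
          (ENNReal.ofReal (Real.exp (8 * ε)) * ENNReal.ofReal (G p ^ 2)) * 300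
        ≤ ENNReal.ofReal (s + 5) * Ph f 0 *
          (ENNReal.ofReal (Real.exp 8) * ENNReal.ofReal (G p ^ 2)) * 300 := by
          gcongr
          · exact hW.bdd 5 _ (by norm_num)
          · linarith
      _ = _ := by ring
  · rw [if_neg h1]
    push Not at h1
    refine le_trans ?_ le_add_self
    rw [Finset.mul_sum]
    refine Finset.sum_le_sum fun τ _ => ?_
    rw [Finset.mul_sum]
    refine Finset.sum_le_sum fun k hk => ?_
    have hk' := Finset.mem_range.mp hk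
    rw [lam_eq, ENNReal.ofReal_mul (p := 1 / 4 * (fderiv ℝ φ p (pt (evec τ))) ^ 2 + ε)
      (by positivity)]
    have hsd := sd_sq_le hg.c2 (p + Sg τ k) (Av τ k) (Bv τ k)
    set A := ENNReal.ofReal (W 5 (φ p)) *
        Ph f (max ((rho3 φ (s + 8) (Zon B L0) p).toReal - C1 s - 2) 0) *
        ENNReal.ofReal (Real.exp (8 * ε) * G p ^ 2) with hA
    set A2 := ENNReal.ofReal (1 / 4 * (fderiv ℝ φ p (pt (evec τ))) ^ 2 + ε) with hA2
    have hm2 : Measurable fun z : ℝ × ℝ => ENNReal.ofReal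
        (D2 φ (p + Sg τ k + z.2 • Av τ k + z.1 • Bv τ k) (Av τ k) (Bv τ k) ^ 2) := by
      refine ENNReal.measurable_ofReal.comp (Continuous.measurable ?_)
      exact ((continuous_D2 hg.c2 (Av τ k) (Bv τ k)).comp (by fun_prop)).pow 2
    have hcm := const_mul_dbl (g := fun t s' => ENNReal.ofReal
        (D2 φ (p + Sg τ k + s' • Av τ k + t • Bv τ k) (Av τ k) (Bv τ k) ^ 2)) hm2 (A * A2)
    calc A * (A2 * ENNReal.ofReal (sd φ (p + Sg τ k) (Av τ k) (Bv τ k) ^ 2))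
        = A * A2 * ENNReal.ofReal (sd φ (p + Sg τ k) (Av τ k) (Bv τ k) ^ 2) := by ring
      _ ≤ A * A2 * ∫⁻ t in Icc (0:ℝ) 1, ∫⁻ s' in Icc (0:ℝ) 1, ENNReal.ofReal
          (D2 φ (p + Sg τ k + s' • Av τ k + t • Bv τ k) (Av τ k) (Bv τ k) ^ 2) :=
          mul_le_mul' le_rfl hsd
      _ = ∫⁻ t in Icc (0:ℝ) 1, ∫⁻ s' in Icc (0:ℝ) 1, A * A2 * ENNReal.ofReal
          (D2 φ (p + Sg τ k + s' • Av τ k + t • Bv τ k) (Av τ k) (Bv τ k) ^ 2) := hcm
      _ ≤ _ := by
          refine setLIntegral_mono' measurableSet_Icc fun t ht => ?_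
          refine setLIntegral_mono' measurableSet_Icc fun s' hs' => ?_
          have hsh := norm_shift_le hk' hs' ht
          have hd : dist p (p + Sg τ k + s' • Av τ k + t • Bv τ k) ≤ 2 := by
            rw [dist_comm, dist_eq_norm]
            have e : p + Sg τ k + s' • Av τ k + t • Bv τ k - p
              = Sg τ k + s' • Av τ k + t • Bv τ k := by abel
            rw [e]; exact hsh
          exact point_le hg hs hL hδ hW hf hG hl hε hc hE hk' hd h1 h2

lemma int_Rr_le (hg : PX.Good φ B s δ L0) (hs : 1 ≤ s) (hL : 200 * (s + 10) ≤ L0) (hδ : 0 ≤ δ)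
    {W : ℝ → ℝ → ℝ} {f : ℝ → ℝ} {G : E3 → ℝ} (hW : Wt s W) (hf : Antitone f) {l : ℝ}
    (hG : Gwt G l) (hl : 0 ≤ l) {ε c E : ℝ} (hε : 0 ≤ ε) (hε1 : ε ≤ 1) (hc : ε + 3 * δ ≤ c)
    (hE : Real.exp (8 * ε + 4 * l) ≤ E) :
    ∫⁻ p, Rr φ B s L0 ε W f G p ≤ (∫⁻ p, Sc φ B s L0 f G p) +
      ∫⁻ x, ∑ τ : Fin 7, ∑ k ∈ Finset.range (mm τ), Tt φ B s L0 E c W f G τ k x := by
  have hT := fun τ k => measurable_Tt (B := B) (s := s) (L0 := L0) (E := E) (c := c) hg.c2 hW hf
    hG.cont τ k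
  refine (lintegral_mono fun p => Rr_le hg hs hL hδ hW hf hG hl hε hε1 hc hE p).trans ?_
  rw [lintegral_add_left (measurable_Sc hg.c2.continuous f hG.cont)]
  refine add_le_add le_rfl (le_of_eq ?_)
  rw [lintegral_finsetSum, lintegral_finsetSum]
  · refine Finset.sum_congr rfl fun τ _ => ?_
    rw [lintegral_finsetSum, lintegral_finsetSum]
    · refine Finset.sum_congr rfl fun k _ => ?_
      exact avg_shift (hT τ k) _ _ _
    · exact fun k _ => hT τ k
    · exact fun k _ => measurable_avg (hT τ k) _ _ _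
  · exact fun τ _ => Finset.measurable_sum _ fun k _ => hT τ k
  · exact fun τ _ => Finset.measurable_sum _ fun k _ => measurable_avg (hT τ k) _ _ _

lemma src_subset (hC : 0 ≤ C1 s) : {x | rh φ B s L0 x ≤ ENNReal.ofReal (C1 s + 2)} ⊆
    {x | ∃ b ∈ B, dist x b ≤ 2 * L0 + C1 s + 3} := by
  intro x hx
  have hlt : rho3 φ (s + 8) (Zon B L0) x < ENNReal.ofReal (C1 s + 3) :=
    lt_of_le_of_lt hx ((ENNReal.ofReal_lt_ofReal_iff (by linarith)).mpr (by linarith))
  obtain ⟨n, p, hc, hl⟩ := exists_chain hlt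
  have hl' : Surf.len n p < C1 s + 3 := (ENNReal.ofReal_lt_ofReal_iff (by linarith)).mp hl
  obtain ⟨b, hb, hd⟩ := hc.1
  refine ⟨b, hb, ?_⟩
  have h1 : dist (p 0) (p n) ≤ Surf.len n p := dist_le_range_sum_dist p n
  rw [hc.2.1] at h1
  have h2 := dist_triangle x (p 0) b
  rw [dist_comm x (p 0)] at h2
  linarith

/-- the quadratic form with `D2` -/
lemma NN_eq (φ : E3 → ℝ) (x : E3) : NN φ x = ∑ τ : Fin 7, ∑ k ∈ Finset.range (mm τ),
    1 / 4 * (fderiv ℝ φ x (pt (evec τ))) ^ 2 * D2 φ x (Av τ k) (Bv τ k) ^ 2 := by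
  unfold NN D2 Av Bv
  rw [Finset.mul_sum]
  refine Finset.sum_congr rfl fun τ _ => ?_
  rw [Finset.mul_sum]
  refine Finset.sum_congr rfl fun k _ => ?_
  ring

lemma sum_D2_le (φ : E3 → ℝ) (x : E3) : ∑ τ : Fin 7, ∑ k ∈ Finset.range (mm τ),
    D2 φ x (Av τ k) (Bv τ k) ^ 2 ≤ 9216 * ‖fderiv ℝ (fderiv ℝ φ) x‖ ^ 2 := by
  calc ∑ τ : Fin 7, ∑ k ∈ Finset.range (mm τ), D2 φ x (Av τ k) (Bv τ k) ^ 2
      ≤ ∑ τ : Fin 7, ∑ k ∈ Finset.range (mm τ), 256 * ‖fderiv ℝ (fderiv ℝ φ) x‖ ^ 2 := by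
        refine Finset.sum_le_sum fun τ _ => Finset.sum_le_sum fun k hk => ?_
        have hk' := Finset.mem_range.mp hk
        exact D2_sq_le φ x _ _ (norm_Av hk') (norm_Bv hk')
    _ = ((∑ τ : Fin 7, mm τ : ℕ) : ℝ) * (256 * ‖fderiv ℝ (fderiv ℝ φ) x‖ ^ 2) := by
        simp only [Finset.sum_const, Finset.card_range, nsmul_eq_mul]
        rw [← Finset.sum_mul]; push_cast; ring
    _ = _ := by rw [sum_mm]; push_cast; ring

/-- pointwise form of the right side -/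
lemma sum_Tt_le (hs : 1 ≤ s) {W : ℝ → ℝ → ℝ} {f : ℝ → ℝ} {G : E3 → ℝ} (hW : Wt s W)
    {ε ε' : ℝ} (hε' : 0 < ε') (hε : ε = 100000 * ε') (hε1 : ε ≤ 1) (x : E3) :
    ENNReal.ofReal (1 + ε') * ∑ τ : Fin 7, ∑ k ∈ Finset.range (mm τ),
      Tt φ B s L0 (Real.exp (12 * ε')) (4 * ε') W f G τ k x ≤
    {x | 0 < rho3 φ (s + 8) (Zon B L0) x ∧ rho3 φ (s + 8) (Zon B L0) x < ⊤}.indicator (fun x =>
      ENNReal.ofReal (W 8 (φ x) *
        ((1 + ε) * NN φ x + ε * ‖fderiv ℝ (fderiv ℝ φ) x‖ ^ 2) * G x ^ 2) *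
        Ph f (max ((rho3 φ (s + 8) (Zon B L0) x).toReal - C1 s - 4) 0)) x := by
  by_cases hx : x ∈ {x | 0 < rho3 φ (s + 8) (Zon B L0) x ∧ rho3 φ (s + 8) (Zon B L0) x < ⊤}
  swap
  · have : ∀ τ k, Tt φ B s L0 (Real.exp (12 * ε')) (4 * ε') W f G τ k x = 0 := fun τ k =>
      indicator_of_notMem hx _
    simp [this]
  rw [indicator_of_mem hx]
  have hT : ∀ τ k, Tt φ B s L0 (Real.exp (12 * ε')) (4 * ε') W f G τ k x =
      ENNReal.ofReal (W 8 (φ x)) * Ph f (max ((rh φ B s L0 x).toReal - C1 s - 4) 0) *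
      ENNReal.ofReal (Real.exp (12 * ε') * G x ^ 2) *
      ENNReal.ofReal ((1 / 4 * (fderiv ℝ φ x (pt (evec τ))) ^ 2 + 4 * ε') *
        D2 φ x (Av τ k) (Bv τ k) ^ 2) := fun τ k => indicator_of_mem hx _
  simp_rw [hT, ← Finset.mul_sum]
  have hy0 : ∀ τ k, 0 ≤ (1 / 4 * (fderiv ℝ φ x (pt (evec τ))) ^ 2 + 4 * ε') *
        D2 φ x (Av τ k) (Bv τ k) ^ 2 := fun τ k => by positivity
  have hsum : ∑ τ : Fin 7, ∑ k ∈ Finset.range (mm τ),
      ENNReal.ofReal ((1 / 4 * (fderiv ℝ φ x (pt (evec τ))) ^ 2 + 4 * ε') *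
        D2 φ x (Av τ k) (Bv τ k) ^ 2) = ENNReal.ofReal (∑ τ : Fin 7, ∑ k ∈ Finset.range (mm τ),
        (1 / 4 * (fderiv ℝ φ x (pt (evec τ))) ^ 2 + 4 * ε') * D2 φ x (Av τ k) (Bv τ k) ^ 2) := by
    rw [ENNReal.ofReal_sum_of_nonneg fun τ _ => Finset.sum_nonneg fun k _ => hy0 τ k]
    refine Finset.sum_congr rfl fun τ _ => ?_
    rw [ENNReal.ofReal_sum_of_nonneg fun k _ => hy0 τ k]
  rw [hsum]
  set Y := ∑ τ : Fin 7, ∑ k ∈ Finset.range (mm τ),
        (1 / 4 * (fderiv ℝ φ x (pt (evec τ))) ^ 2 + 4 * ε') * D2 φ x (Av τ k) (Bv τ k) ^ 2 with hY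
  set N2 := ‖fderiv ℝ (fderiv ℝ φ) x‖ ^ 2 with hN2
  have hN20 : 0 ≤ N2 := sq_nonneg _
  have hYle : Y ≤ NN φ x + 4 * ε' * (9216 * N2) := by
    have h1 : Y = NN φ x + 4 * ε' * ∑ τ : Fin 7, ∑ k ∈ Finset.range (mm τ),
        D2 φ x (Av τ k) (Bv τ k) ^ 2 := by
      rw [NN_eq, hY, Finset.mul_sum, ← Finset.sum_add_distrib]
      refine Finset.sum_congr rfl fun τ _ => ?_
      rw [Finset.mul_sum, ← Finset.sum_add_distrib]
      refine Finset.sum_congr rfl fun k _ => ?_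
      ring
    rw [h1]
    have := sum_D2_le φ x
    gcongr
  have hNN : 0 ≤ NN φ x := by
    rw [NN_eq]
    exact Finset.sum_nonneg fun τ _ => Finset.sum_nonneg fun k _ => by positivity
  have hY0 : 0 ≤ Y := Finset.sum_nonneg fun τ _ => Finset.sum_nonneg fun k _ => hy0 τ k
  have hexp : Real.exp (12 * ε') ≤ 1 + 24 * ε' := by
    have h1 : 1 - 12 * ε' ≤ Real.exp (-(12 * ε')) := by
      have := Real.add_one_le_exp (-(12 * ε')); linarith
    have h2 : Real.exp (12 * ε') * Real.exp (-(12 * ε')) = 1 := by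
      rw [← Real.exp_add]; simp
    have h3 : 0 < Real.exp (12 * ε') := Real.exp_pos _
    have h4 : 12 * ε' ≤ 1 / 2 := by linarith
    have h5 : Real.exp (12 * ε') * (1 - 12 * ε') ≤ 1 := by
      exact (mul_le_mul_of_nonneg_left h1 h3.le).trans h2.le
    nlinarith
  have hfin : (1 + ε') * (Real.exp (12 * ε') * Y) ≤ (1 + ε) * NN φ x + ε * N2 := by
    have h1 : (1 + ε') * Real.exp (12 * ε') ≤ 1 + 26 * ε' := by nlinarith
    calc (1 + ε') * (Real.exp (12 * ε') * Y) = ((1 + ε') * Real.exp (12 * ε')) * Y := by ring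
      _ ≤ (1 + 26 * ε') * (NN φ x + 4 * ε' * (9216 * N2)) := by
          apply mul_le_mul h1 hYle hY0; positivity
      _ ≤ (1 + ε) * NN φ x + ε * N2 := by
          have h2 : (1 + 26 * ε') ≤ 1 + ε := by linarith
          have h3 : (1 + 26 * ε') * (4 * ε' * 9216) ≤ ε := by nlinarith
          nlinarith [mul_le_mul_of_nonneg_right h2 hNN, mul_le_mul_of_nonneg_right h3 hN20]
  have hW8 := hW.nonneg 8 (φ x)
  calc ENNReal.ofReal (1 + ε') * (ENNReal.ofReal (W 8 (φ x)) *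
        Ph f (max ((rh φ B s L0 x).toReal - C1 s - 4) 0) *
        ENNReal.ofReal (Real.exp (12 * ε') * G x ^ 2) * ENNReal.ofReal Y)
      = (ENNReal.ofReal (1 + ε') * ENNReal.ofReal (W 8 (φ x)) *
        ENNReal.ofReal (Real.exp (12 * ε') * G x ^ 2) * ENNReal.ofReal Y) *
        Ph f (max ((rh φ B s L0 x).toReal - C1 s - 4) 0) := by ring
    _ ≤ _ := by
        refine mul_le_mul' ?_ le_rfl
        rw [← ENNReal.ofReal_mul (by positivity), ← ENNReal.ofReal_mul (by positivity),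
          ← ENNReal.ofReal_mul (by positivity)]
        refine ENNReal.ofReal_le_ofReal ?_
        calc (1 + ε') * W 8 (φ x) * (Real.exp (12 * ε') * G x ^ 2) * Y
            = W 8 (φ x) * ((1 + ε') * (Real.exp (12 * ε') * Y)) * G x ^ 2 := by ring
          _ ≤ _ := by gcongr

end main

/-- **FIALA3D from the averaged polyhedral inequality.** -/
theorem fiala_of (H4 : StPX4) : StFIALA := by
  intro ε hε hε1 s hs
  set ε' := ε / 100000 with hε'
  have hε'0 : 0 < ε' := by positivity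
  have hεε : ε = 100000 * ε' := by rw [hε']; ring
  obtain ⟨δ4, hδ4, H⟩ := H4 ε' hε'0 (by linarith) s hs
  set δ := min δ4 ε' with hδ
  have hδ0 : 0 < δ := lt_min hδ4 hε'0
  have hδ1 : δ ≤ δ4 := min_le_left _ _
  have hδ2 : δ ≤ ε' := min_le_right _ _
  refine ⟨δ, hδ0, fun L0 hL => ?_⟩
  have hC1 : 0 ≤ C1 s := by unfold C1; linarith
  set CZ := s * (Real.exp (2 * δ * (2 * L0)) * Vb (2 * L0)) with hCZ
  set CS := 2 * ((s + 5) * 300 * Real.exp 8 *
    (Real.exp (2 * δ * (2 * L0 + C1 s + 3)) * Vb (2 * L0 + C1 s + 3))) with hCS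
  have hVb : ∀ r, 0 ≤ Vb r := fun r => ENNReal.toReal_nonneg
  have hCZ0 : 0 ≤ CZ := by have := hVb (2 * L0); positivity
  have hCS0 : 0 ≤ CS := by have := hVb (2 * L0 + C1 s + 3); positivity
  refine ⟨1 + CZ + CS, ?_⟩
  intro φ B hg W f R0 G hW hf hG
  have hR0 : 1 ≤ R0 := hf.one_le
  have hl : 0 ≤ δ / R0 := by positivity
  have hlδ : δ / R0 ≤ δ := div_le_self hδ0.le hR0
  have hGδ : Gwt G δ := Gwt.mono hG hlδ
  -- the trivial cases
  by_cases hP : Ph f 0 = 0
  · have hf4 : f 4 ≤ 0 := by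
      have := f4_le_Ph hf.anti
      rw [hP] at this
      exact ENNReal.ofReal_eq_zero.mp (le_antisymm this bot_le)
    have hz : ∀ x, Psi3 φ B s L0 ε f G x = 0 := by
      intro x
      unfold Psi3
      split_ifs with h
      · have h1 : f ((1 + ε) * (rho3 φ (s + 8) (Zon B L0) x).toReal + 4) ≤ 0 := by
          refine (hf.anti ?_).trans hf4
          have : 0 ≤ (rho3 φ (s + 8) (Zon B L0) x).toReal := ENNReal.toReal_nonneg
          have : 0 ≤ (1 + ε) * (rho3 φ (s + 8) (Zon B L0) x).toReal := by positivity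
          linarith
        rw [ENNReal.ofReal_eq_zero.mpr h1, zero_mul]
      · rfl
    simp [hz]
  by_cases hT : ∑' b : B, ENNReal.ofReal (G b ^ 2) = ⊤
  · have : ENNReal.ofReal (1 + CZ + CS) * Ph f 0 * ∑' b : B, ENNReal.ofReal (G b ^ 2) = ⊤ := by
      rw [hT]
      refine ENNReal.mul_top ?_
      refine mul_ne_zero ?_ hP
      rw [Ne, ENNReal.ofReal_eq_zero]; push Not; positivity
    rw [this, top_add]
    exact le_top
  have hBc : B.Countable := by
    have h1 := Summable.countable_support_ennreal hT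
    have h2 : Function.support (fun b : B => ENNReal.ofReal (G b ^ 2)) = univ := by
      ext b
      simp only [Function.mem_support, mem_univ, iff_true, ne_eq, ENNReal.ofReal_eq_zero]
      push Not
      exact pow_pos (hG.pos b) 2
    rw [h2] at h1
    exact countable_coe_iff.mp (countable_univ_iff.mp h1)
  set A := fun x => ENNReal.ofReal (W 0 (φ x) * ‖gradient φ x‖) * Psi3 φ B s L0 ε f G x with hA
  -- the zone
  have hZ : ∫⁻ x in Zon B L0, A x ≤
      ENNReal.ofReal CZ * Ph f 0 * ∑' b : B, ENNReal.ofReal (G b ^ 2) := by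
    have h1 : ∀ x, A x ≤ (ENNReal.ofReal s * Ph f 0) * ENNReal.ofReal (G x ^ 2) := by
      intro x
      have a1 : ENNReal.ofReal (W 0 (φ x) * ‖gradient φ x‖) ≤ ENNReal.ofReal s := by
        refine ENNReal.ofReal_le_ofReal ?_
        have b1 := hW.bdd 0 (φ x) le_rfl
        have b2 := hW.nonneg 0 (φ x)
        have b3 := hg.le_one x
        nlinarith [norm_nonneg (gradient φ x)]
      have a2 : Psi3 φ B s L0 ε f G x ≤ Ph f 0 * ENNReal.ofReal (G x ^ 2) := by
        unfold Psi3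
        split_ifs with h
        · refine mul_le_mul' ((ENNReal.ofReal_le_ofReal (hf.anti ?_)).trans (f4_le_Ph hf.anti))
            le_rfl
          have : 0 ≤ (rho3 φ (s + 8) (Zon B L0) x).toReal := ENNReal.toReal_nonneg
          have : 0 ≤ (1 + ε) * (rho3 φ (s + 8) (Zon B L0) x).toReal := by positivity
          linarith
        · exact zero_le
      calc A x ≤ ENNReal.ofReal s * (Ph f 0 * ENNReal.ofReal (G x ^ 2)) := mul_le_mul' a1 a2
        _ = _ := by ring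
    refine (lintegral_mono h1).trans ?_
    refine (cover_le hBc hGδ hδ0.le _).trans (le_of_eq ?_)
    rw [hCZ, ENNReal.ofReal_mul (by linarith : 0 ≤ s)]
    ring
  -- sources
  have hS : ∫⁻ p, Sc φ B s L0 f G p ≤
      ENNReal.ofReal (CS / 2) * Ph f 0 * ∑' b : B, ENNReal.ofReal (G b ^ 2) := by
    unfold Sc
    rw [lintegral_indicator (measurableSet_src hg.c2.continuous)]
    refine (lintegral_mono_set (src_subset hC1)).trans ?_
    refine (cover_le hBc hGδ hδ0.le _).trans (le_of_eq ?_)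
    have e : CS / 2 = (s + 5) * 300 * Real.exp 8 *
      (Real.exp (2 * δ * (2 * L0 + C1 s + 3)) * Vb (2 * L0 + C1 s + 3)) := by rw [hCS]; ring
    have h300 : ENNReal.ofReal 300 = 300 := by norm_num
    rw [e, ENNReal.ofReal_mul (p := (s + 5) * 300 * Real.exp 8) (by positivity),
      ENNReal.ofReal_mul (p := (s + 5) * 300) (by positivity),
      ENNReal.ofReal_mul (p := s + 5) (by positivity), h300]
    ring
  -- the main part
  have hM := H L0 hL φ B (Good.mono hg hδ1) W f R0 G hW hf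
    (Gwt.mono hG (div_le_div_of_nonneg_right hδ2 (by linarith)))
  have hM2 := int_Rr_le hg hs hL hδ0.le hW hf.anti hG hl (ε := ε') (c := 4 * ε')
    (E := Real.exp (12 * ε')) hε'0.le (by linarith) (by linarith)
    (Real.exp_le_exp.mpr (by linarith))
  have hO : ∫⁻ x in (Zon B L0)ᶜ, A x ≤ ENNReal.ofReal CS * Ph f 0 *
      ∑' b : B, ENNReal.ofReal (G b ^ 2) +
    ∫⁻ x in {x | 0 < rho3 φ (s + 8) (Zon B L0) x ∧ rho3 φ (s + 8) (Zon B L0) x < ⊤},
      ENNReal.ofReal (W 8 (φ x) *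
        ((1 + ε) * NN φ x + ε * ‖fderiv ℝ (fderiv ℝ φ) x‖ ^ 2) * G x ^ 2) *
        Ph f (max ((rho3 φ (s + 8) (Zon B L0) x).toReal - C1 s - 4) 0) := by
    have s1 : ∫⁻ x in (Zon B L0)ᶜ, A x ≤ ∫⁻ x in (Zon B L0)ᶜ,
        ENNReal.ofReal (W 0 (φ x) * ‖gradient φ x‖) * Psi3 φ B s L0 ε' f G x := by
      refine lintegral_mono fun x => mul_le_mul' le_rfl ?_
      unfold Psi3
      split_ifs with h
      · refine mul_le_mul' (ENNReal.ofReal_le_ofReal (hf.anti ?_)) le_rfl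
        have : 0 ≤ (rho3 φ (s + 8) (Zon B L0) x).toReal := ENNReal.toReal_nonneg
        nlinarith
      · exact le_rfl
    refine s1.trans (hM.trans ?_)
    refine (mul_le_mul' le_rfl hM2).trans ?_
    rw [mul_add]
    refine add_le_add ?_ ?_
    · refine (mul_le_mul' le_rfl hS).trans ?_
      calc ENNReal.ofReal (1 + ε') * (ENNReal.ofReal (CS / 2) * Ph f 0 *
            ∑' b : B, ENNReal.ofReal (G b ^ 2))
          = ENNReal.ofReal ((1 + ε') * (CS / 2)) * Ph f 0 *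
            ∑' b : B, ENNReal.ofReal (G b ^ 2) := by
            rw [ENNReal.ofReal_mul (by linarith)]; ring
        _ ≤ _ := by
            gcongr
            nlinarith
    · rw [← lintegral_const_mul _ (Finset.measurable_sum _ fun τ _ => Finset.measurable_sum _
        fun k _ => measurable_Tt hg.c2 hW hf.anti hG.cont τ k),
        ← lintegral_indicator (measurableSet_reg hg.c2.continuous)]
      exact lintegral_mono fun x => sum_Tt_le hs hW hε'0 hεε hε1 x
  set I3 := ∫⁻ x in {x | 0 < rho3 φ (s + 8) (Zon B L0) x ∧ rho3 φ (s + 8) (Zon B L0) x < ⊤},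
      ENNReal.ofReal (W 8 (φ x) *
        ((1 + ε) * NN φ x + ε * ‖fderiv ℝ (fderiv ℝ φ) x‖ ^ 2) * G x ^ 2) *
        Ph f (max ((rho3 φ (s + 8) (Zon B L0) x).toReal - C1 s - 4) 0) with hI3
  set TS := ∑' b : B, ENNReal.ofReal (G b ^ 2) with hTS
  calc ∫⁻ x, A x = ∫⁻ x in Zon B L0 ∪ (Zon B L0)ᶜ, A x := by
        rw [union_compl_self, setLIntegral_univ]
    _ ≤ (∫⁻ x in Zon B L0, A x) + ∫⁻ x in (Zon B L0)ᶜ, A x := lintegral_union_le _ _ _
    _ ≤ ENNReal.ofReal CZ * Ph f 0 * TS + (ENNReal.ofReal CS * Ph f 0 * TS + I3) :=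
        add_le_add hZ hO
    _ = (ENNReal.ofReal CZ + ENNReal.ofReal CS) * Ph f 0 * TS + I3 := by ring
    _ ≤ ENNReal.ofReal (1 + CZ + CS) * Ph f 0 * TS + I3 := by
        refine add_le_add ?_ le_rfl
        rw [← ENNReal.ofReal_add hCZ0 hCS0]
        gcongr
        linarith

end Vale.Agent.P134.H970
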