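import Vale.Agent.P134.PX.Defs

/-! P134 / PX : elementary facts on the chain distance `rho3`. -/

set_option linter.all false

open MeasureTheory Set
open scoped ENNReal RealInnerProductSpace Real

namespace Vale.Agent.P134.H970

open PX
open PS hiding Lat

variable {φ : E3 → ℝ} {S : ℝ} {Z : Set E3}

lemma len_nonneg (n : ℕ) (p : ℕ → E3) : 0 ≤ Surf.len n p :=
  Finset.sum_nonneg fun _ _ => dist_nonneg

lemma rho3_le {x : E3} {n : ℕ} {p : ℕ → E3} (h : Ch3 φ S Z x n p) :
    rho3 φ S Z x ≤ ENNReal.ofReal (Surf.len n p) :=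
  iInf_le_of_le n (iInf_le_of_le p (iInf_le_of_le h le_rfl))

lemma exists_chain {x : E3} {r : ℝ≥0∞} (h : rho3 φ S Z x < r) :
    ∃ (n : ℕ) (p : ℕ → E3), Ch3 φ S Z x n p ∧ ENNReal.ofReal (Surf.len n p) < r := by
  unfold rho3 at h
  simp only [iInf_lt_iff] at h
  obtain ⟨n, p, hc, hr⟩ := h
  exact ⟨n, p, hc, hr⟩

lemma rho3_slab {x : E3} (h : rho3 φ S Z x < ⊤) : |φ x| ≤ S := by
  obtain ⟨n, p, hc, -⟩ := exists_chain h
  have := hc.2.2.1 n le_rfl
  rwa [hc.2.1] at this

lemma rho3_zero {x : E3} (hx : x ∈ Z) (h : |φ x| ≤ S) : rho3 φ S Z x = 0 := by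
  have h1 : Ch3 φ S Z x 0 (fun _ => x) := ⟨hx, rfl, fun _ _ => h, fun k hk => absurd hk (by omega)⟩
  have h2 := rho3_le h1
  have h3 : Surf.len 0 (fun _ => x) = 0 := by simp [Surf.len]
  rw [h3, ENNReal.ofReal_zero] at h2
  exact le_antisymm h2 bot_le

lemma ext_chain {x y : E3} {n : ℕ} {p : ℕ → E3} (h : Ch3 φ S Z x n p) (hy : |φ y| ≤ S)
    (hxy : dist x y ≤ 2) : ∃ p' : ℕ → E3, Ch3 φ S Z y (n + 1) p' ∧
      Surf.len (n + 1) p' = Surf.len n p + dist x y := by
  classical
  refine ⟨fun k => if k ≤ n then p k else y, ⟨?_, ?_, ?_, ?_⟩, ?_⟩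
  · simpa using h.1
  · simp
  · intro k hk
    by_cases hkn : k ≤ n
    · simpa [hkn] using h.2.2.1 k hkn
    · simpa [hkn] using hy
  · intro k hk
    by_cases hkn : k < n
    · have h1 : k ≤ n := hkn.le
      have h2 : k + 1 ≤ n := hkn
      simpa [h1, h2] using h.2.2.2 k hkn
    · have h1 : k = n := by omega
      subst h1
      simpa [h.2.1] using hxy
  · unfold Surf.len
    rw [Finset.sum_range_succ]
    congr 1
    · refine Finset.sum_congr rfl fun k hk => ?_
      have hk' := Finset.mem_range.mp hk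
      have h1 : k ≤ n := hk'.le
      have h2 : k + 1 ≤ n := hk'
      simp [h1, h2]
    · simp [h.2.1]

lemma rho3_step {x y : E3} (hy : |φ y| ≤ S) (hxy : dist x y ≤ 2) :
    rho3 φ S Z y ≤ rho3 φ S Z x + ENNReal.ofReal (dist x y) := by
  refine le_of_forall_gt_imp_ge_of_dense fun c hc => ?_
  by_cases hx : rho3 φ S Z x < ⊤
  swap
  · have : rho3 φ S Z x = ⊤ := by simpa using hx
    rw [this, top_add] at hc
    exact absurd hc (by simp)
  · obtain ⟨r, hr1, hr2⟩ : ∃ r, rho3 φ S Z x < r ∧ r + ENNReal.ofReal (dist x y) ≤ c := by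
      refine ⟨c - ENNReal.ofReal (dist x y), ?_, ?_⟩
      · exact lt_tsub_iff_right.mpr (by simpa using hc)
      · rw [tsub_add_cancel_of_le]
        exact le_trans (le_add_self) hc.le
    obtain ⟨n, p, hcn, hl⟩ := exists_chain hr1
    obtain ⟨p', hc', hl'⟩ := ext_chain hcn hy hxy
    refine (rho3_le hc').trans ?_
    rw [hl', ENNReal.ofReal_add (len_nonneg _ _) dist_nonneg]
    exact (add_le_add_left hl.le _).trans hr2

/-- `{rho3 < c}` is relatively open in the slab. -/
lemma measurable_rho3 (hφ : Continuous φ) : Measurable (rho3 φ S Z) := by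
  refine measurable_of_Iio fun c => ?_
  have hslab : MeasurableSet {x : E3 | |φ x| ≤ S} :=
    (isClosed_le (continuous_abs.comp hφ) continuous_const).measurableSet
  have key : rho3 φ S Z ⁻¹' Iio c =
      {x : E3 | |φ x| ≤ S} ∩ ⋃ x ∈ {x : E3 | rho3 φ S Z x < c},
        {y : E3 | dist x y < 2 ∧ rho3 φ S Z x + ENNReal.ofReal (dist x y) < c} := by
    ext y
    simp only [mem_preimage, mem_Iio, mem_inter_iff, mem_setOf_eq, mem_iUnion, exists_prop]
    constructor
    · intro h
      refine ⟨rho3_slab (h.trans_le le_top), y, h, by simp, by simpa using h⟩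
    · rintro ⟨hy, x, hx, hd, hl⟩
      exact (rho3_step hy hd.le).trans_lt hl
  rw [key]
  refine hslab.inter (IsOpen.measurableSet ?_)
  refine isOpen_biUnion fun x _ => ?_
  have h1 : IsOpen {y : E3 | dist x y < 2} :=
    isOpen_lt (continuous_const.dist continuous_id) continuous_const
  have h2 : IsOpen {y : E3 | rho3 φ S Z x + ENNReal.ofReal (dist x y) < c} := by
    refine isOpen_lt ?_ continuous_const
    exact continuous_const.add (ENNReal.continuous_ofReal.comp (continuous_const.dist continuous_id))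
  exact h1.inter h2

end Vale.Agent.P134.H970
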