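import Vale.Agent.P134.H970.Rho

/-! P134 / PX : second differences as averages of second derivatives, Jensen, averaging over
translations. -/

set_option linter.all false

open MeasureTheory Set
open scoped ENNReal RealInnerProductSpace Real

namespace Vale.Agent.P134.H970

open PX
open PS hiding Lat

variable {φ : E3 → ℝ}

lemma sq_int_le {g : ℝ → ℝ} (hg : Continuous g) :
    (∫ t in (0:ℝ)..1, g t) ^ 2 ≤ ∫ t in (0:ℝ)..1, g t ^ 2 := by
  set m := ∫ t in (0:ℝ)..1, g t with hm
  have h0 : 0 ≤ ∫ t in (0:ℝ)..1, (g t - m) ^ 2 :=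
    intervalIntegral.integral_nonneg (by norm_num) fun t _ => sq_nonneg _
  have h1 : ∫ t in (0:ℝ)..1, (g t - m) ^ 2 = (∫ t in (0:ℝ)..1, g t ^ 2) - 2 * m * m + m ^ 2 := by
    have e : (fun t => (g t - m) ^ 2) = fun t => g t ^ 2 - (2 * m) * g t + m ^ 2 := by
      funext t; ring
    rw [e, intervalIntegral.integral_add, intervalIntegral.integral_sub,
      intervalIntegral.integral_const_mul, intervalIntegral.integral_const]
    · simp [← hm]
    · exact (hg.pow 2).intervalIntegrable _ _
    · exact (continuous_const.mul hg).intervalIntegrable _ _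
    · exact ((hg.pow 2).sub (continuous_const.mul hg)).intervalIntegrable _ _
    · exact continuous_const.intervalIntegrable _ _
  nlinarith

/-- the second derivative as a function -/
noncomputable def D2 (φ : E3 → ℝ) (x a b : E3) : ℝ := fderiv ℝ (fderiv ℝ φ) x a b

lemma continuous_D2 (hφ : ContDiff ℝ 2 φ) (a b : E3) : Continuous fun x => D2 φ x a b := by
  have h1 : ContDiff ℝ 1 (fderiv ℝ φ) := hφ.fderiv_right (by norm_num)
  have h2 : Continuous (fderiv ℝ (fderiv ℝ φ)) := h1.continuous_fderiv (by norm_num)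
  unfold D2
  exact (h2.clm_apply continuous_const).clm_apply continuous_const

lemma sd_eq (hφ : ContDiff ℝ 2 φ) (p a b : E3) :
    sd φ p a b = ∫ t in (0:ℝ)..1, ∫ s in (0:ℝ)..1, D2 φ (p + s • a + t • b) a b := by
  have hd : Differentiable ℝ φ := hφ.differentiable (by norm_num)
  have h1 : ContDiff ℝ 1 (fderiv ℝ φ) := hφ.fderiv_right (by norm_num)
  have hd1 : Differentiable ℝ (fderiv ℝ φ) := h1.differentiable (by norm_num)
  have hc1 : Continuous (fderiv ℝ φ) := h1.continuous
  have inner : ∀ t : ℝ, ∫ s in (0:ℝ)..1, D2 φ (p + s • a + t • b) a b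
      = fderiv ℝ φ (p + a + t • b) b - fderiv ℝ φ (p + t • b) b := by
    intro t
    have hder : ∀ s ∈ uIcc (0:ℝ) 1, HasDerivAt (fun s : ℝ => fderiv ℝ φ (p + s • a + t • b) b)
        (D2 φ (p + s • a + t • b) a b) s := by
      intro s _
      have e1 : HasDerivAt (fun s : ℝ => p + s • a + t • b) a s := by
        have : HasDerivAt (fun s : ℝ => s • a) ((1:ℝ) • a) s := (hasDerivAt_id s).smul_const a
        simpa using (this.const_add p).add_const (t • b)
      have e2 := (hd1 (p + s • a + t • b)).hasFDerivAt.comp_hasDerivAt s e1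
      exact e2.clm_apply (hasDerivAt_const s b) |>.congr_deriv (by simp [D2])
    rw [intervalIntegral.integral_eq_sub_of_hasDerivAt hder]
    · simp
    · refine Continuous.intervalIntegrable ?_ _ _
      exact (continuous_D2 hφ a b).comp (by fun_prop)
  simp_rw [inner]
  have hder : ∀ t ∈ uIcc (0:ℝ) 1, HasDerivAt (fun t : ℝ => φ (p + a + t • b) - φ (p + t • b))
      (fderiv ℝ φ (p + a + t • b) b - fderiv ℝ φ (p + t • b) b) t := by
    intro t _
    have e0 : HasDerivAt (fun t : ℝ => t • b) b t := by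
      simpa using (hasDerivAt_id t).smul_const b
    have e1 : HasDerivAt (fun t : ℝ => p + a + t • b) b t := e0.const_add _
    have e2 : HasDerivAt (fun t : ℝ => p + t • b) b t := e0.const_add _
    exact ((hd _).hasFDerivAt.comp_hasDerivAt t e1).sub ((hd _).hasFDerivAt.comp_hasDerivAt t e2)
  rw [intervalIntegral.integral_eq_sub_of_hasDerivAt hder]
  · unfold sd; simp; ring
  · refine Continuous.intervalIntegrable ?_ _ _
    exact ((hc1.comp (by fun_prop)).clm_apply continuous_const).sub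
      ((hc1.comp (by fun_prop)).clm_apply continuous_const)

lemma sd_sq_le_real (hφ : ContDiff ℝ 2 φ) (p a b : E3) :
    sd φ p a b ^ 2 ≤ ∫ t in (0:ℝ)..1, ∫ s in (0:ℝ)..1, D2 φ (p + s • a + t • b) a b ^ 2 := by
  rw [sd_eq hφ]
  have hc : Continuous fun z : ℝ × ℝ => D2 φ (p + z.2 • a + z.1 • b) a b :=
    (continuous_D2 hφ a b).comp (by fun_prop)
  have hc1 : Continuous fun t : ℝ => ∫ s in (0:ℝ)..1, D2 φ (p + s • a + t • b) a b :=
    intervalIntegral.continuous_parametric_intervalIntegral_of_continuous' hc 0 1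
  have hc2 : Continuous fun t : ℝ => ∫ s in (0:ℝ)..1, D2 φ (p + s • a + t • b) a b ^ 2 :=
    intervalIntegral.continuous_parametric_intervalIntegral_of_continuous' (hc.pow 2) 0 1
  refine (sq_int_le hc1).trans ?_
  refine intervalIntegral.integral_mono_on (by norm_num) ((hc1.pow 2).intervalIntegrable _ _)
    (hc2.intervalIntegrable _ _) fun t _ => ?_
  refine sq_int_le ?_
  exact (continuous_D2 hφ a b).comp (by fun_prop)

lemma ofReal_int {g : ℝ → ℝ} (hg : Continuous g) (h0 : ∀ t, 0 ≤ g t) :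
    ENNReal.ofReal (∫ t in (0:ℝ)..1, g t) = ∫⁻ t in Icc (0:ℝ) 1, ENNReal.ofReal (g t) := by
  rw [intervalIntegral.integral_of_le (by norm_num), ← integral_Icc_eq_integral_Ioc,
    ofReal_integral_eq_lintegral_ofReal]
  · exact (hg.continuousOn).integrableOn_Icc
  · exact Filter.Eventually.of_forall h0

lemma sd_sq_le (hφ : ContDiff ℝ 2 φ) (p a b : E3) :
    ENNReal.ofReal (sd φ p a b ^ 2) ≤ ∫⁻ t in Icc (0:ℝ) 1, ∫⁻ s in Icc (0:ℝ) 1,
      ENNReal.ofReal (D2 φ (p + s • a + t • b) a b ^ 2) := by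
  refine (ENNReal.ofReal_le_ofReal (sd_sq_le_real hφ p a b)).trans (le_of_eq ?_)
  have hc : Continuous fun z : ℝ × ℝ => D2 φ (p + z.2 • a + z.1 • b) a b :=
    (continuous_D2 hφ a b).comp (by fun_prop)
  have hc2 : Continuous fun t : ℝ => ∫ s in (0:ℝ)..1, D2 φ (p + s • a + t • b) a b ^ 2 :=
    intervalIntegral.continuous_parametric_intervalIntegral_of_continuous' (hc.pow 2) 0 1
  rw [ofReal_int hc2 fun t => intervalIntegral.integral_nonneg (by norm_num) fun s _ => sq_nonneg _]
  refine lintegral_congr fun t => ?_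
  rw [ofReal_int _ fun s => sq_nonneg _]
  exact ((continuous_D2 hφ a b).comp (by fun_prop)).pow 2

/-- averaging over translations does not change the integral. -/
lemma avg_shift {T : E3 → ℝ≥0∞} (hT : Measurable T) (σ a b : E3) :
    ∫⁻ p, ∫⁻ t in Icc (0:ℝ) 1, ∫⁻ s in Icc (0:ℝ) 1, T (p + σ + s • a + t • b)
      = ∫⁻ x, T x := by
  have hm : Measurable fun z : (E3 × ℝ) × ℝ => T (z.1.1 + σ + z.2 • a + z.1.2 • b) :=
    hT.comp (by fun_prop)
  have h1 : Measurable fun z : E3 × ℝ => ∫⁻ s in Icc (0:ℝ) 1, T (z.1 + σ + s • a + z.2 • b) :=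
    hm.lintegral_prod_right'
  rw [lintegral_lintegral_swap h1.aemeasurable]
  have h2 : ∀ t : ℝ, ∫⁻ p : E3, ∫⁻ s in Icc (0:ℝ) 1, T (p + σ + s • a + t • b) = ∫⁻ x, T x := by
    intro t
    have h3 : Measurable fun z : E3 × ℝ => T (z.1 + σ + z.2 • a + t • b) := hT.comp (by fun_prop)
    rw [lintegral_lintegral_swap h3.aemeasurable]
    have h4 : ∀ s : ℝ, ∫⁻ p : E3, T (p + σ + s • a + t • b) = ∫⁻ x, T x := by
      intro s
      have e : (fun p : E3 => T (p + σ + s • a + t • b)) =
          fun p : E3 => T (p + (σ + s • a + t • b)) := by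
        funext p; congr 1; abel
      rw [e]
      exact lintegral_add_right_eq_self T _
    simp_rw [h4]
    simp
  simp_rw [h2]
  simp

end Vale.Agent.P134.H970
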